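import Mathlib

/-!
# P072: Caratheodory equations with a bounded Lipschitz right side

`carath_exists`: let `λ = 2 * L + 1`. On the Banach space of bounded continuous functions
`y : ℝ → E` consider `(T y) t = exp (-λ |t|) • (x₀ + ∫ s in 0..|t|, F s (exp (λ s) • y s))`. It is bounded by
`‖x₀‖ + C * t * exp (-λ t)`, continuous, and `dist (T y) (T z) ≤ (L / λ) * dist y z` because
`∫ s in 0..t, exp (-λ (t - s)) ≤ 1 / λ`. The fixed point `y` gives `x t = exp (λ |t|) • y t`.
(Any other proof is fine, for example the contraction on short intervals and gluing.)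

`carath_unique`: `φ t = ∫ s in 0..t, ‖y s - z s‖` is nonnegative, `φ 0 = 0` and `φ' ≤ L φ`, so `φ = 0` (Gronwall).
-/

namespace Vale.Agent.P072

open MeasureTheory Set

section VCarAux

variable {E : Type} [NormedAddCommGroup E] [NormedSpace ℝ E]

omit [NormedSpace ℝ E] in
theorem vcar_intInt (F : ℝ → E → E) (C : ℝ)
    (hmeas : ∀ x : ℝ → E, Continuous x → AEStronglyMeasurable (fun s => F s (x s)) volume)
    (hC : ∀ s u, ‖F s u‖ ≤ C) (x : ℝ → E) (hx : Continuous x) (a b : ℝ) :
    IntervalIntegrable (fun s => F s (x s)) volume a b := by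
  have hc : IntervalIntegrable (fun _ : ℝ => C) volume a b := intervalIntegrable_const
  refine hc.mono_fun (hmeas x hx).restrict ?_
  filter_upwards with s
  exact (hC s (x s)).trans (Real.le_norm_self C)

/-- the weighted Picard map -/
noncomputable def vcarMap (F : ℝ → E → E) (lam : ℝ) (x₀ : E) (y : ℝ → E) (t : ℝ) : E :=
  Real.exp (-(lam * |t|)) • (x₀ + ∫ s in (0 : ℝ)..|t|, F s (Real.exp (lam * s) • y s))

theorem vcarMap_continuous (F : ℝ → E → E) (C lam : ℝ)
    (hmeas : ∀ x : ℝ → E, Continuous x → AEStronglyMeasurable (fun s => F s (x s)) volume)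
    (hC : ∀ s u, ‖F s u‖ ≤ C) (x₀ : E) (y : ℝ → E) (hy : Continuous y) :
    Continuous (vcarMap F lam x₀ y) := by
  unfold vcarMap
  have h1 : Continuous (fun t : ℝ => ∫ s in (0 : ℝ)..t, F s (Real.exp (lam * s) • y s)) := by
    apply intervalIntegral.continuous_primitive
    intro a b
    exact vcar_intInt F C hmeas hC _ (by fun_prop) a b
  have h2 : Continuous (fun t : ℝ => ∫ s in (0 : ℝ)..|t|, F s (Real.exp (lam * s) • y s)) :=
    h1.comp continuous_abs
  have h3 : Continuous (fun t : ℝ => Real.exp (-(lam * |t|))) := by fun_prop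
  exact h3.smul (h2.const_add x₀)

theorem vcarMap_bound (F : ℝ → E → E) (C lam : ℝ) (hlam : 1 ≤ lam)
    (hC : ∀ s u, ‖F s u‖ ≤ C) (x₀ : E) (y : ℝ → E) (t : ℝ) :
    ‖vcarMap F lam x₀ y t‖ ≤ ‖x₀‖ + C := by
  have hC0 : 0 ≤ C := (norm_nonneg _).trans (hC 0 0)
  unfold vcarMap
  rw [norm_smul, Real.norm_of_nonneg (Real.exp_pos _).le]
  have h1 : ‖∫ s in (0 : ℝ)..|t|, F s (Real.exp (lam * s) • y s)‖ ≤ C * |t| := by
    have h := intervalIntegral.norm_integral_le_of_norm_le_const (a := (0 : ℝ)) (b := |t|)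
      (f := fun s => F s (Real.exp (lam * s) • y s)) (C := C) (fun s _ => hC s _)
    rwa [sub_zero, abs_abs] at h
  have h2 : |t| ≤ Real.exp (lam * |t|) := by
    have h3 := Real.add_one_le_exp (lam * |t|)
    have h4 : |t| ≤ lam * |t| := le_mul_of_one_le_left (abs_nonneg t) hlam
    linarith
  have h5 : Real.exp (-(lam * |t|)) * |t| ≤ 1 := by
    rw [Real.exp_neg]
    rw [inv_mul_le_iff₀ (Real.exp_pos _), mul_one]
    exact h2
  have h6 : Real.exp (-(lam * |t|)) ≤ 1 := by
    rw [Real.exp_le_one_iff]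
    have : 0 ≤ lam * |t| := by positivity
    linarith
  calc Real.exp (-(lam * |t|)) * ‖x₀ + ∫ s in (0 : ℝ)..|t|, F s (Real.exp (lam * s) • y s)‖
      ≤ Real.exp (-(lam * |t|)) * (‖x₀‖ + C * |t|) := by
        apply mul_le_mul_of_nonneg_left _ (Real.exp_pos _).le
        exact (norm_add_le _ _).trans (by linarith)
    _ = Real.exp (-(lam * |t|)) * ‖x₀‖ + C * (Real.exp (-(lam * |t|)) * |t|) := by ring
    _ ≤ 1 * ‖x₀‖ + C * 1 := by
        apply add_le_add
        · exact mul_le_mul_of_nonneg_right h6 (norm_nonneg _)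
        · exact mul_le_mul_of_nonneg_left h5 hC0
    _ = ‖x₀‖ + C := by ring

theorem vcarMap_dist (F : ℝ → E → E) (L C : ℝ) (hL : 0 ≤ L)
    (hmeas : ∀ x : ℝ → E, Continuous x → AEStronglyMeasurable (fun s => F s (x s)) volume)
    (hLip : ∀ s u v, ‖F s u - F s v‖ ≤ L * ‖u - v‖)
    (hC : ∀ s u, ‖F s u‖ ≤ C) (x₀ : E) (y z : ℝ → E) (hy : Continuous y) (hz : Continuous z)
    (D : ℝ) (hD : ∀ s, ‖y s - z s‖ ≤ D) (t : ℝ) :
    ‖vcarMap F (2 * L + 1) x₀ y t - vcarMap F (2 * L + 1) x₀ z t‖ ≤ 1 / 2 * D := by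
  have hD0 : 0 ≤ D := (norm_nonneg _).trans (hD 0)
  set lam : ℝ := 2 * L + 1 with hlam
  have hlam0 : 0 < lam := by positivity
  have iy := vcar_intInt F C hmeas hC (fun s => Real.exp (lam * s) • y s) (by fun_prop) 0 |t|
  have iz := vcar_intInt F C hmeas hC (fun s => Real.exp (lam * s) • z s) (by fun_prop) 0 |t|
  have h0 : vcarMap F lam x₀ y t - vcarMap F lam x₀ z t = Real.exp (-(lam * |t|)) •
      ∫ s in (0 : ℝ)..|t|, (F s (Real.exp (lam * s) • y s) - F s (Real.exp (lam * s) • z s)) := by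
    unfold vcarMap
    rw [intervalIntegral.integral_sub iy iz, ← smul_sub, add_sub_add_left_eq_sub]
  rw [h0, norm_smul, Real.norm_of_nonneg (Real.exp_pos _).le]
  have h1 : ‖∫ s in (0 : ℝ)..|t|, (F s (Real.exp (lam * s) • y s)
      - F s (Real.exp (lam * s) • z s))‖ ≤ ∫ s in (0 : ℝ)..|t|, L * D * Real.exp (lam * s) := by
    apply intervalIntegral.norm_integral_le_of_norm_le (abs_nonneg t)
    · filter_upwards with s _
      have h2 := hLip s (Real.exp (lam * s) • y s) (Real.exp (lam * s) • z s)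
      rw [← smul_sub, norm_smul, Real.norm_of_nonneg (Real.exp_pos _).le] at h2
      calc _ ≤ L * (Real.exp (lam * s) * ‖y s - z s‖) := h2
        _ ≤ L * (Real.exp (lam * s) * D) := by
          apply mul_le_mul_of_nonneg_left _ hL
          exact mul_le_mul_of_nonneg_left (hD s) (Real.exp_pos _).le
        _ = L * D * Real.exp (lam * s) := by ring
    · apply Continuous.intervalIntegrable
      fun_prop
  have h3 : ∫ s in (0 : ℝ)..|t|, L * D * Real.exp (lam * s)
      = L * D / lam * (Real.exp (lam * |t|) - 1) := by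
    have hder : ∀ s ∈ uIcc 0 |t|, HasDerivAt (fun s : ℝ => L * D / lam * Real.exp (lam * s))
        (L * D * Real.exp (lam * s)) s := by
      intro s _
      have e1 : HasDerivAt (fun s : ℝ => lam * s) lam s := by
        simpa using (hasDerivAt_id s).const_mul lam
      have e2 := (e1.exp).const_mul (L * D / lam)
      refine e2.congr_deriv ?_
      field_simp
    rw [intervalIntegral.integral_eq_sub_of_hasDerivAt hder
      (Continuous.intervalIntegrable (by fun_prop) _ _)]
    rw [mul_zero, Real.exp_zero]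
    ring
  rw [h3] at h1
  calc Real.exp (-(lam * |t|)) * ‖∫ s in (0 : ℝ)..|t|, (F s (Real.exp (lam * s) • y s)
      - F s (Real.exp (lam * s) • z s))‖
      ≤ Real.exp (-(lam * |t|)) * (L * D / lam * (Real.exp (lam * |t|) - 1)) :=
        mul_le_mul_of_nonneg_left h1 (Real.exp_pos _).le
    _ = L * D / lam * (1 - Real.exp (-(lam * |t|))) := by
        have : Real.exp (-(lam * |t|)) * Real.exp (lam * |t|) = 1 := by
          rw [← Real.exp_add]
          simp
        linear_combination (L * D / lam) * this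
    _ ≤ L * D / lam * 1 := by
        apply mul_le_mul_of_nonneg_left _ (by positivity)
        linarith [Real.exp_pos (-(lam * |t|))]
    _ = L / lam * D := by ring
    _ ≤ 1 / 2 * D := by
        apply mul_le_mul_of_nonneg_right _ hD0
        rw [div_le_div_iff₀ hlam0 (by norm_num)]
        rw [hlam]
        linarith

end VCarAux

theorem carath_exists {E : Type} [NormedAddCommGroup E] [NormedSpace ℝ E] [CompleteSpace E]
    (F : ℝ → E → E) (L C : ℝ)
    (hmeas : ∀ x : ℝ → E, Continuous x → AEStronglyMeasurable (fun s => F s (x s)) volume)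
    (hLip : ∀ s u v, ‖F s u - F s v‖ ≤ L * ‖u - v‖) (hC : ∀ s u, ‖F s u‖ ≤ C) (x₀ : E) :
    ∃ x : ℝ → E, Continuous x ∧ x 0 = x₀ ∧
      ∀ t, 0 ≤ t → x t = x₀ + ∫ s in (0 : ℝ)..t, F s (x s) := by
  have hLip' : ∀ s u v, ‖F s u - F s v‖ ≤ |L| * ‖u - v‖ := fun s u v =>
    (hLip s u v).trans (mul_le_mul_of_nonneg_right (le_abs_self L) (norm_nonneg _))
  set lam : ℝ := 2 * |L| + 1 with hlam
  have hlam1 : 1 ≤ lam := by
    rw [hlam]
    linarith [abs_nonneg L]
  set P : BoundedContinuousFunction ℝ E → BoundedContinuousFunction ℝ E := fun y =>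
    BoundedContinuousFunction.ofNormedAddCommGroup (vcarMap F lam x₀ y)
      (vcarMap_continuous F C lam hmeas hC x₀ y y.continuous) (‖x₀‖ + C)
      (vcarMap_bound F C lam hlam1 hC x₀ y) with hP
  have hPapp : ∀ y t, P y t = vcarMap F lam x₀ y t := fun y t => rfl
  have hcontr : ContractingWith (1 / 2 : NNReal) P := by
    refine ⟨by
      rw [← NNReal.coe_lt_coe]
      norm_num, LipschitzWith.of_dist_le_mul fun y z => ?_⟩
    rw [BoundedContinuousFunction.dist_le (by positivity)]
    intro t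
    rw [hPapp, hPapp, dist_eq_norm]
    have h := vcarMap_dist F |L| C (abs_nonneg L) hmeas hLip' hC x₀ y z y.continuous z.continuous
      (dist y z) (fun s => by rw [← dist_eq_norm]; exact y.dist_coe_le_dist s) t
    simpa using h
  obtain ⟨y, hy⟩ : ∃ y, P y = y := ⟨hcontr.fixedPoint, hcontr.fixedPoint_isFixedPt⟩
  have hyt : ∀ t, y t = vcarMap F lam x₀ y t := fun t => by
    rw [← hPapp, hy]
  have hform : ∀ t, 0 ≤ t → Real.exp (lam * |t|) • y t
      = x₀ + ∫ s in (0 : ℝ)..t, F s (Real.exp (lam * |s|) • y s) := by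
    intro t ht
    have h1 : ∫ s in (0 : ℝ)..t, F s (Real.exp (lam * |s|) • y s)
        = ∫ s in (0 : ℝ)..t, F s (Real.exp (lam * s) • y s) := by
      apply intervalIntegral.integral_congr
      intro s hs
      rw [uIcc_of_le ht] at hs
      simp only [abs_of_nonneg hs.1]
    rw [h1, hyt t]
    unfold vcarMap
    rw [smul_smul, ← Real.exp_add, add_neg_cancel, Real.exp_zero, one_smul, abs_of_nonneg ht]
  refine ⟨fun t => Real.exp (lam * |t|) • y t, ?_, ?_, ?_⟩
  · have h1 : Continuous (fun t : ℝ => Real.exp (lam * |t|)) := by fun_prop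
    exact h1.smul y.continuous
  · have h := hform 0 le_rfl
    rw [intervalIntegral.integral_same, add_zero] at h
    exact h
  · intro t ht
    exact hform t ht

theorem carath_unique {E : Type} [NormedAddCommGroup E] [NormedSpace ℝ E] [CompleteSpace E]
    (f g y z : ℝ → E) (L T : ℝ) (hy : ContinuousOn y (Icc 0 T)) (hz : ContinuousOn z (Icc 0 T))
    (hf : IntervalIntegrable f volume 0 T) (hg : IntervalIntegrable g volume 0 T)
    (hLip : ∀ s ∈ Icc 0 T, ‖f s - g s‖ ≤ L * ‖y s - z s‖) (h0 : y 0 = z 0)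
    (hyf : ∀ t ∈ Icc 0 T, y t = y 0 + ∫ s in (0 : ℝ)..t, f s)
    (hzg : ∀ t ∈ Icc 0 T, z t = z 0 + ∫ s in (0 : ℝ)..t, g s) :
    ∀ t ∈ Icc 0 T, y t = z t := by
  intro t₀ ht₀
  have hT : 0 ≤ T := ht₀.1.trans ht₀.2
  set cl : ℝ → ℝ := fun s => max 0 (min s T) with hcl
  have hclc : Continuous cl := by fun_prop
  have hclm : ∀ s, cl s ∈ Icc 0 T := fun s => ⟨le_max_left _ _, max_le hT (min_le_right _ _)⟩
  have hcle : ∀ s ∈ Icc 0 T, cl s = s := by
    intro s hs
    simp only [hcl]
    rw [min_eq_left hs.2, max_eq_right hs.1]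
  set W : ℝ → ℝ := fun s => ‖y (cl s) - z (cl s)‖ with hW
  have hWc : Continuous W := by
    have h1 : Continuous (fun s => y (cl s)) := hy.comp_continuous hclc hclm
    have h2 : Continuous (fun s => z (cl s)) := hz.comp_continuous hclc hclm
    exact (h1.sub h2).norm
  have hW0 : ∀ s, 0 ≤ W s := fun s => norm_nonneg _
  set φ : ℝ → ℝ := fun t => ∫ s in (0 : ℝ)..t, W s with hφ
  have hder : ∀ t, HasDerivAt φ (W t) t := fun t =>
    (hWc.integral_hasStrictDerivAt 0 t).hasDerivAt
  have hφ0 : ∀ t, 0 ≤ t → 0 ≤ φ t := fun t ht =>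
    intervalIntegral.integral_nonneg ht (fun s _ => hW0 s)
  have hbound : ∀ t ∈ Icc 0 T, W t ≤ |L| * φ t := by
    intro t ht
    have hft : IntervalIntegrable f volume 0 t := hf.mono_set (by
      rw [uIcc_of_le ht.1, uIcc_of_le hT]
      exact Icc_subset_Icc_right ht.2)
    have hgt : IntervalIntegrable g volume 0 t := hg.mono_set (by
      rw [uIcc_of_le ht.1, uIcc_of_le hT]
      exact Icc_subset_Icc_right ht.2)
    have e1 : y t - z t = ∫ s in (0 : ℝ)..t, (f s - g s) := by
      rw [intervalIntegral.integral_sub hft hgt, hyf t ht, hzg t ht, h0, add_sub_add_left_eq_sub]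
    have e2 : W t = ‖∫ s in (0 : ℝ)..t, (f s - g s)‖ := by
      simp only [hW]
      rw [hcle t ht, e1]
    rw [e2]
    calc ‖∫ s in (0 : ℝ)..t, (f s - g s)‖ ≤ ∫ s in (0 : ℝ)..t, |L| * W s := by
          apply intervalIntegral.norm_integral_le_of_norm_le ht.1
          · filter_upwards with s hs
            have hs' : s ∈ Icc 0 T := ⟨hs.1.le, hs.2.trans ht.2⟩
            have h3 := hLip s hs'
            simp only [hW]
            rw [hcle s hs']
            exact h3.trans (mul_le_mul_of_nonneg_right (le_abs_self L) (norm_nonneg _))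
          · exact (hWc.const_mul |L|).intervalIntegrable _ _
      _ = |L| * φ t := by
          rw [intervalIntegral.integral_const_mul]
  have key := norm_le_gronwallBound_of_norm_deriv_right_le (f := φ) (f' := W) (δ := 0)
    (K := |L|) (ε := 0) (a := 0) (b := T)
    (fun t _ => (hder t).continuousAt.continuousWithinAt)
    (fun t _ => (hder t).hasDerivWithinAt)
    (by simp [hφ])
    (by
      intro t ht
      have ht' : t ∈ Icc 0 T := ⟨ht.1, ht.2.le⟩
      rw [Real.norm_of_nonneg (hW0 t), Real.norm_of_nonneg (hφ0 t ht.1), add_zero]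
      exact hbound t ht') t₀ ht₀
  rw [gronwallBound_ε0_δ0] at key
  have h1 : φ t₀ = 0 := norm_eq_zero.1 (le_antisymm key (norm_nonneg _))
  have h2 := hbound t₀ ht₀
  rw [h1, mul_zero] at h2
  have h3 : W t₀ = 0 := le_antisymm h2 (hW0 t₀)
  simp only [hW] at h3
  rw [hcle t₀ ht₀, norm_eq_zero, sub_eq_zero] at h3
  exact h3

end Vale.Agent.P072
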