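import Vale.Agent.Lib.P072.Defs

/-!
# P072: measurable time-dependent rates
-/

namespace Vale.Agent.P072

namespace Network

variable {d : ℕ} (N : Network d)

/-- Time-dependent rates: `κ t r` is the rate of the reaction `r` at the time `t ≥ 0`. They are
admissible for `ε` if they are measurable in `t` and take values in `[ε, ε⁻¹]`. -/
def Admissible (ε : ℝ) (κ : ℝ → Cx d × Cx d → ℝ) : Prop :=
  ∀ r ∈ N.reactions, Measurable (fun t => κ t r) ∧ ∀ t, 0 ≤ t → κ t r ∈ Set.Icc ε ε⁻¹

/-- `x` solves the mass-action system with the rates `κ` on the interval `I` with left end point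
`0`, in the sense of Caratheodory: it is continuous and satisfies the integral equation. -/
def IsSolutionV (κ : ℝ → Cx d × Cx d → ℝ) (I : Set ℝ) (x : ℝ → Fin d → ℝ) : Prop :=
  ContinuousOn x I ∧ ∀ t ∈ I, x t = x 0 + ∫ s in (0 : ℝ)..t, N.field (κ s) (x s)

/-- Permanence on the positive stoichiometric class of `c`, uniformly for all measurable
time-dependent rates with values in `[ε, ε⁻¹]`. -/
structure PermanentV (ε : ℝ) (c : Fin d → ℝ) : Prop where
  /-- every point of the class is the starting point of a solution on `[0, ∞)` -/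
  exists_solution : ∀ κ, N.Admissible ε κ → ∀ x₀ ∈ N.posClass c,
    ∃ x : ℝ → Fin d → ℝ, x 0 = x₀ ∧ N.IsSolutionV κ (Set.Ici 0) x
  /-- every solution on `[0, T)` which starts in the class is a restriction of the solution on
  `[0, ∞)` with the same starting point; so all solutions exist for all times -/
  unique : ∀ κ, N.Admissible ε κ →
    ∀ x : ℝ → Fin d → ℝ, N.IsSolutionV κ (Set.Ici 0) x → x 0 ∈ N.posClass c →
      ∀ (T : ℝ) (y : ℝ → Fin d → ℝ), N.IsSolutionV κ (Set.Ico 0 T) y → y 0 = x 0 →
        ∀ t ∈ Set.Ico 0 T, y t = x t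
  /-- solutions starting in the class are positive and stay in the class -/
  mem_class : ∀ κ, N.Admissible ε κ →
    ∀ x : ℝ → Fin d → ℝ, N.IsSolutionV κ (Set.Ici 0) x → x 0 ∈ N.posClass c →
      ∀ t, 0 ≤ t → x t ∈ N.posClass c
  /-- one compact subset of the class contains `x t` for all large `t`, for all admissible rates
  and every solution `x` which starts in the class -/
  exists_compact : ∃ K : Set (Fin d → ℝ), IsCompact K ∧ K ⊆ N.posClass c ∧
    ∀ κ, N.Admissible ε κ →
      ∀ x : ℝ → Fin d → ℝ, N.IsSolutionV κ (Set.Ici 0) x → x 0 ∈ N.posClass c →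
        ∃ T : ℝ, ∀ t, T ≤ t → x t ∈ K

end Network

end Vale.Agent.P072
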