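import Vale.Agent.Lib.P072.Flux
import Vale.Agent.Lib.P072.RegB
import Vale.Agent.Lib.P072.V.VDefs

/-!
# P072: the flux inequality, uniformly in the rates

`flux_unif`: the proof of `flux` with `a = ε`, `B = ε⁻¹` in place of the minimum and the maximum
of the rates (the case without reactions is trivial; with a reaction `ε ≤ ε⁻¹`, or no rate vector satisfies
the condition).

`worst`: the maximum of `W ⬝ᵥ field k x` over all rates `k` with values in `[ε, ε⁻¹]`; it is attained at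
`k r = ε⁻¹` or `ε` according to the sign of `W ⬝ᵥ rvec r`.
-/

namespace Vale.Agent.P072

open Matrix

/-- the flux inequality for all rates with values in `[a, B]` -/
theorem vFlux_core {d : ℕ} (N : Network d) (hN : N.WeaklyReversible) (hR : N.reactions.Nonempty)
    (a B : ℝ) (ha0 : 0 < a) (haB : a ≤ B) :
    ∃ M₁ : ℝ, 0 ≤ M₁ ∧ ∀ k : Cx d × Cx d → ℝ, (∀ r ∈ N.reactions, a ≤ k r ∧ k r ≤ B) →
      N.FluxIneq k M₁ := by
  classical
  obtain ⟨ra, hra⟩ := hR
  have hB0 : 0 < B := lt_of_lt_of_le ha0 haB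
  set m : ℝ := (N.reactions.card : ℝ) with hm
  set n : ℝ := (N.complexes.card : ℝ) with hn
  have hm1 : 1 ≤ m := by
    rw [hm]; exact_mod_cast Finset.card_pos.2 ⟨ra, hra⟩
  have hn1 : 1 ≤ n := by
    rw [hn]; exact_mod_cast Finset.card_pos.2 ⟨ra.1, N.source_mem ra hra⟩
  set L : ℝ := 2 * m * n * (B / a) with hL
  have hBa : 1 ≤ B / a := by rw [le_div_iff₀ ha0]; linarith
  have hmn : 1 ≤ m * n := by nlinarith
  have hL1 : 1 ≤ L := by
    rw [hL]
    nlinarith [mul_le_mul hmn hBa zero_le_one (by linarith)]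
  have hL0 : 0 < L := by linarith
  refine ⟨Real.log L, Real.log_nonneg hL1, ?_⟩
  intro k hkk x hx g hdom
  have hmin : ∀ r ∈ N.reactions, a ≤ k r := fun r hr => (hkk r hr).1
  have hmax : ∀ r ∈ N.reactions, k r ≤ B := fun r hr => (hkk r hr).2
  have hk : ∀ r ∈ N.reactions, 0 < k r := fun r hr => lt_of_lt_of_le ha0 (hmin r hr)
  rw [Real.exp_log hL0] at hdom
  set t : Cx d × Cx d → ℝ := fun r => k r * monom x r.1 * (g r.2 - g r.1) with ht
  set S : ℝ := ∑ r ∈ N.reactions, max (-(t r)) 0 with hS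
  have hS0 : 0 ≤ S := Finset.sum_nonneg fun r _ => le_max_right _ _
  have hle : ∀ r ∈ N.reactions, max (-(t r)) 0 ≤ S := fun r hr =>
    Finset.single_le_sum (f := fun r => max (-(t r)) 0) (fun r _ => le_max_right _ _) hr
  have hcoef : ∀ r ∈ N.reactions, 0 < k r * monom x r.1 := fun r hr =>
    mul_pos (hk r hr) (monom_pos_flux x hx _)
  -- an up-edge
  have hup : ∀ r ∈ N.reactions, 0 < t r → t r ≤ S / (2 * m) ∧ 0 < S := by
    intro r hr htr
    have hg : g r.1 < g r.2 := by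
      have h1 := hcoef r hr
      have h2 : 0 < g r.2 - g r.1 := by
        by_contra h3
        have h4 : k r * monom x r.1 * (g r.2 - g r.1) ≤ 0 :=
          mul_nonpos_of_nonneg_of_nonpos h1.le (not_lt.1 h3)
        exact absurd htr (not_lt.2 h4)
      linarith
    obtain ⟨q, hq, hgq, hsteep⟩ := flux_down N hN g r hr hg
    rw [← hn] at hsteep
    have hD0 : 0 < g q.1 - g q.2 := by
      by_contra h3
      have : n * (g q.1 - g q.2) ≤ 0 :=
        mul_nonpos_of_nonneg_of_nonpos (by linarith) (not_lt.1 h3)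
      linarith
    have hdomq : L * monom x r.1 ≤ monom x q.1 :=
      hdom q.1 (N.source_mem q hq) r.1 (N.source_mem r hr) hgq
    have hmr := monom_pos_flux x hx r.1
    have hmq := monom_pos_flux x hx q.1
    have htq : -(t q) = k q * monom x q.1 * (g q.1 - g q.2) := by
      rw [ht]; ring
    have htq0 : 0 < -(t q) := by
      rw [htq]; exact mul_pos (hcoef q hq) hD0
    have htqS : -(t q) ≤ S := le_trans (le_max_left _ _) (hle q hq)
    refine ⟨?_, lt_of_lt_of_le htq0 htqS⟩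
    have e1 : t r ≤ B * monom x r.1 * (n * (g q.1 - g q.2)) := by
      rw [ht]
      have h1 : k r * monom x r.1 ≤ B * monom x r.1 :=
        mul_le_mul_of_nonneg_right (hmax r hr) hmr.le
      exact mul_le_mul h1 hsteep (by linarith) (by positivity)
    have e2 : a * (L * monom x r.1) * (g q.1 - g q.2) ≤ -(t q) := by
      rw [htq]
      refine mul_le_mul_of_nonneg_right ?_ hD0.le
      exact mul_le_mul (hmin q hq) hdomq (by positivity) (hk q hq).le
    have e3 : a * (L * monom x r.1) * (g q.1 - g q.2)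
        = 2 * m * (B * monom x r.1 * (n * (g q.1 - g q.2))) := by
      rw [hL]; field_simp
    rw [le_div_iff₀ (by linarith)]
    have e4 : t r * (2 * m) ≤ B * monom x r.1 * (n * (g q.1 - g q.2)) * (2 * m) :=
      mul_le_mul_of_nonneg_right e1 (by linarith)
    linarith
  have hpos : ∑ r ∈ N.reactions, max (t r) 0 ≤ S / 2 := by
    have h1 : ∀ r ∈ N.reactions, max (t r) 0 ≤ S / (2 * m) := by
      intro r hr
      rcases lt_or_ge 0 (t r) with h | h
      · rw [max_eq_left h.le]; exact (hup r hr h).1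
      · rw [max_eq_right h]; exact div_nonneg hS0 (by linarith)
    have h2 := Finset.sum_le_card_nsmul N.reactions _ _ h1
    rw [nsmul_eq_mul, ← hm] at h2
    have h3 : m * (S / (2 * m)) = S / 2 := by field_simp
    linarith
  have hsplit : ∑ r ∈ N.reactions, t r = ∑ r ∈ N.reactions, max (t r) 0 - S := by
    rw [hS, ← Finset.sum_sub_distrib]
    refine Finset.sum_congr rfl fun r _ => ?_
    rcases le_total 0 (t r) with h | h
    · rw [max_eq_left h, max_eq_right (by linarith)]; ring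
    · rw [max_eq_right h, max_eq_left (by linarith)]; ring
  constructor
  · show ∑ r ∈ N.reactions, t r ≤ 0
    rw [hsplit]; linarith
  · rintro ⟨r, hr, hne⟩
    show ∑ r ∈ N.reactions, t r < 0
    have hSpos : 0 < S := by
      rcases lt_or_gt_of_ne hne with h | h
      · have : 0 < t r := mul_pos (hcoef r hr) (by linarith)
        exact (hup r hr this).2
      · have h1 : 0 < -(t r) := by
          have h2 : -(t r) = k r * monom x r.1 * (g r.1 - g r.2) := by rw [ht]; ring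
          rw [h2]; exact mul_pos (hcoef r hr) (by linarith)
        exact lt_of_lt_of_le (lt_of_lt_of_le h1 (le_max_left _ _)) (hle r hr)
    rw [hsplit]; linarith

theorem flux_unif {d : ℕ} (N : Network d) (hN : N.WeaklyReversible) (ε : ℝ) (hε : 0 < ε) :
    ∃ M₁ : ℝ, 0 ≤ M₁ ∧ ∀ k : Cx d × Cx d → ℝ, (∀ r ∈ N.reactions, ε ≤ k r ∧ k r ≤ ε⁻¹) →
      N.FluxIneq k M₁ := by
  rcases N.reactions.eq_empty_or_nonempty with hR | hR
  · refine ⟨0, le_rfl, ?_⟩
    intro k _ x _ g _
    rw [hR]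
    simp
  · by_cases h : ε ≤ ε⁻¹
    · exact vFlux_core N hN hR ε ε⁻¹ hε h
    · refine ⟨0, le_rfl, ?_⟩
      intro k hk
      obtain ⟨r, hr⟩ := hR
      exact absurd ((hk r hr).1.trans (hk r hr).2) h

/-- the flux inequality for all rates with values in `[ε, ε⁻¹]` -/
def Network.FluxIneqV {d : ℕ} (N : Network d) (ε M₁ : ℝ) : Prop :=
  ∀ k : Cx d × Cx d → ℝ, (∀ r ∈ N.reactions, ε ≤ k r ∧ k r ≤ ε⁻¹) → N.FluxIneq k M₁

/-- the maximum of `W ⬝ᵥ field k x` over all rates with values in `[ε, ε⁻¹]` -/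
noncomputable def Network.worst {d : ℕ} (N : Network d) {ι : Type} [Fintype ι] (e : ι ↪ Fin d)
    (ε : ℝ) (W : ι → ℝ) (x : Fin d → ℝ) : ℝ :=
  ∑ r ∈ N.reactions, max (ε * (monom x r.1 * (W ⬝ᵥ fun i => rvec r (e i))))
    (ε⁻¹ * (monom x r.1 * (W ⬝ᵥ fun i => rvec r (e i))))

theorem Network.continuous_worst {d : ℕ} (N : Network d) {ι : Type} [Fintype ι] (e : ι ↪ Fin d)
    (ε : ℝ) (W : ι → ℝ) : Continuous (N.worst e ε W) := by
  unfold Network.worst monom
  fun_prop

/-- `W ⬝ᵥ field` as a sum over the reactions -/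
theorem vFlux_field {d : ℕ} (N : Network d) (k : Cx d × Cx d → ℝ) {ι : Type} [Fintype ι]
    (e : ι ↪ Fin d) (w : ι → ℝ) (x : Fin d → ℝ) :
    (w ⬝ᵥ fun i => N.field k x (e i)) =
      ∑ r ∈ N.reactions, k r * (monom x r.1 * (w ⬝ᵥ fun i => rvec r (e i))) := by
  rw [regB_field]
  refine Finset.sum_congr rfl fun r _ => ?_
  rw [← Finset.sum_sub_distrib, mul_assoc]
  congr 2
  unfold dotProduct rvec
  refine Finset.sum_congr rfl fun i _ => ?_
  ring

theorem Network.le_worst {d : ℕ} (N : Network d) {ι : Type} [Fintype ι] (e : ι ↪ Fin d)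
    (ε : ℝ) (W : ι → ℝ) (x : Fin d → ℝ) (k : Cx d × Cx d → ℝ)
    (hk : ∀ r ∈ N.reactions, ε ≤ k r ∧ k r ≤ ε⁻¹) :
    (W ⬝ᵥ fun i => N.field k x (e i)) ≤ N.worst e ε W x := by
  rw [vFlux_field]
  refine Finset.sum_le_sum fun r hr => ?_
  rcases le_total 0 (monom x r.1 * (W ⬝ᵥ fun i => rvec r (e i))) with h | h
  · exact (mul_le_mul_of_nonneg_right (hk r hr).2 h).trans (le_max_right _ _)
  · exact (mul_le_mul_of_nonpos_right (hk r hr).1 h).trans (le_max_left _ _)

/-- `FluxIneq.re` for the worst rates -/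
theorem Network.FluxIneqV.re {d : ℕ} {N : Network d} {ε M₁ : ℝ} (hε : 0 < ε) (hε1 : ε ≤ ε⁻¹)
    (hF : N.FluxIneqV ε M₁) {ι : Type} [Fintype ι] (e : ι ↪ Fin d) {Λ M N₀ b CA : ℝ}
    (E : RE ι (N.diffs e) Λ M N₀)
    (hCA : ∀ y ∈ N.complexes, ∀ y' ∈ N.complexes, ∑ i, |(y i : ℝ) - (y' i : ℝ)| ≤ CA)
    (hb : 0 ≤ b) (hM : CA * b + M₁ ≤ M) (x : Fin d → ℝ) (hx : ∀ i, 0 < x i)
    (hbox : ∀ i, |Real.log (x (e i))| ≤ N₀)
    (hout : ∀ i, i ∉ Set.range e → |Real.log (x i)| ≤ b)
    (j : Fin E.n) (hj : (fun i => Real.log (x (e i))) ∈ E.D j) :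
    N.worst e ε (E.W j) x ≤ 0 ∧
      ((∃ r ∈ N.reactions, (E.W j ⬝ᵥ fun i => rvec r (e i)) ≠ 0) →
        N.worst e ε (E.W j) x < 0) := by
  classical
  set T : Cx d × Cx d → ℝ := fun r => monom x r.1 * (E.W j ⬝ᵥ fun i => rvec r (e i)) with hT
  set k : Cx d × Cx d → ℝ := fun r => if 0 ≤ T r then ε⁻¹ else ε with hk
  have hkb : ∀ r ∈ N.reactions, ε ≤ k r ∧ k r ≤ ε⁻¹ := by
    intro r _
    rw [hk]
    dsimp only
    split_ifs
    · exact ⟨hε1, le_rfl⟩
    · exact ⟨le_rfl, hε1⟩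
  have heq : N.worst e ε (E.W j) x = E.W j ⬝ᵥ fun i => N.field k x (e i) := by
    rw [vFlux_field]
    refine Finset.sum_congr rfl fun r _ => ?_
    change max (ε * T r) (ε⁻¹ * T r) = k r * T r
    rw [hk]
    dsimp only
    split_ifs with h
    · exact max_eq_right (mul_le_mul_of_nonneg_right hε1 h)
    · exact max_eq_left (mul_le_mul_of_nonpos_right hε1 (not_le.1 h).le)
  rw [heq]
  exact (hF k hkb).re e E hCA hb hM x hx hbox hout j hj

end Vale.Agent.P072
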