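import Vale.Agent.Lib.P072.Descent

/-!
# P072: descent for absolutely continuous paths

`max_mono_gen`: the proof of `max_mono`; the slope of `f j` is at most the slope of `P j`.

`RE.descentV`: `f j t = W j ⬝ᵥ x t - b j`, `P j t = ∫ τ in t₀..t, h j τ` (extend `h j` continuously, or use the
one-sided fundamental theorem of calculus on `Icc t₀ t₁`).
-/

namespace Vale.Agent.P072

open Matrix Set Filter Topology

theorem max_mono_gen {κ : Type} [Finite κ] (f P P' : κ → ℝ → ℝ) (E : κ → Set ℝ) {t₀ t₁ c : ℝ}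
    (h01 : t₀ ≤ t₁) (hE : ∀ j, IsClosed (E j)) (hcov : ∀ t ∈ Icc t₀ t₁, ∃ j, t ∈ E j)
    (hmax : ∀ t ∈ Icc t₀ t₁, ∀ j, t ∈ E j → ∀ j', f j' t ≤ f j t)
    (hcont : ∀ j, ContinuousOn (f j) (Icc t₀ t₁))
    (hP : ∀ j, ∀ s ∈ Icc t₀ t₁, ∀ t ∈ Icc t₀ t₁, s ≤ t → f j t - f j s ≤ P j t - P j s)
    (hder : ∀ j, ∀ t ∈ Ico t₀ t₁, HasDerivWithinAt (P j) (P' j t) (Ici t) t)
    (hdec : ∀ t ∈ Ico t₀ t₁, ∀ j, t ∈ E j → P' j t ≤ -c)
    {j₀ j₁ : κ} (h0 : t₀ ∈ E j₀) (h1 : t₁ ∈ E j₁) : f j₁ t₁ ≤ f j₀ t₀ - c * (t₁ - t₀) := by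
  classical
  have : Fintype κ := Fintype.ofFinite κ
  have hne : (Finset.univ : Finset κ).Nonempty := ⟨j₀, Finset.mem_univ _⟩
  set F : ℝ → ℝ := fun t => Finset.univ.sup' hne (fun j => f j t) with hF
  have hFeq : ∀ t ∈ Icc t₀ t₁, ∀ j, t ∈ E j → F t = f j t := by
    intro t ht j hj
    apply le_antisymm
    · apply Finset.sup'_le
      intro j' _
      exact hmax t ht j hj j'
    · exact Finset.le_sup' (fun j => f j t) (Finset.mem_univ j)
  have hFc : ContinuousOn F (Icc t₀ t₁) := by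
    apply ContinuousOn.finset_sup'_apply
    intro j _
    exact hcont j
  have key := image_le_of_liminf_slope_right_le_deriv_boundary (f := F) (a := t₀) (b := t₁)
    hFc (B := fun t => F t₀ - c * (t - t₀)) (B' := fun _ => -c) (by simp)
    (by fun_prop)
    (by
      intro t _
      have h := ((hasDerivAt_id t).sub_const t₀).const_mul c
      have h2 := h.const_sub (F t₀)
      simpa using h2.hasDerivWithinAt)
    (by
      intro t ht r hr
      apply Filter.Eventually.frequently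
      have h1 : ∀ᶠ z in 𝓝[>] t, ∀ j, (t ∈ E j → slope (P j) t z < r) ∧ (t ∉ E j → z ∉ E j) := by
        rw [Filter.eventually_all]
        intro j
        by_cases hj : t ∈ E j
        · have hd := (hasDerivWithinAt_iff_tendsto_slope' (s := Ioi t) (by simp)).1
            ((hder j t ht).mono Ioi_subset_Ici_self)
          have hlt : P' j t < r := lt_of_le_of_lt (hdec t ht j hj) hr
          filter_upwards [hd.eventually (gt_mem_nhds hlt)] with z hz
          exact ⟨fun _ => hz, fun h => absurd hj h⟩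
        · have : ∀ᶠ z in 𝓝 t, z ∉ E j := (hE j).isOpen_compl.mem_nhds hj
          filter_upwards [this.filter_mono nhdsWithin_le_nhds] with z hz
          exact ⟨fun h => absurd h hj, fun _ => hz⟩
      have h2 : ∀ᶠ z in 𝓝[>] t, z ∈ Ioc t t₁ := Ioc_mem_nhdsGT ht.2
      filter_upwards [h1, h2] with z hz hz2
      have hzI : z ∈ Icc t₀ t₁ := ⟨le_trans ht.1 hz2.1.le, hz2.2⟩
      obtain ⟨j, hj⟩ := hcov z hzI
      have htj : t ∈ E j := by
        by_contra h
        exact (hz j).2 h hj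
      have hs := (hz j).1 htj
      have e1 := hFeq z hzI j hj
      have e2 := hFeq t ⟨ht.1, ht.2.le⟩ j htj
      have h3 := hP j t ⟨ht.1, ht.2.le⟩ z hzI hz2.1.le
      have h4 : slope F t z ≤ slope (P j) t z := by
        simp only [slope, e1, e2, vsub_eq_sub, smul_eq_mul]
        exact mul_le_mul_of_nonneg_left h3 (inv_nonneg.mpr (sub_nonneg.mpr hz2.1.le))
      exact lt_of_le_of_lt h4 hs)
  have h := key (right_mem_Icc.2 h01)
  rw [hFeq t₁ (right_mem_Icc.2 h01) j₁ h1] at h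
  simp only [hFeq t₀ (left_mem_Icc.2 h01) j₀ h0] at h
  exact h

theorem RE.descentV {ι : Type} [Fintype ι] {A : Finset (ι → ℝ)} {Λ M N₀ : ℝ}
    (E : RE ι A Λ M N₀) (x : ℝ → ι → ℝ) (h : Fin E.n → ℝ → ℝ) {t₀ t₁ c : ℝ} (h01 : t₀ ≤ t₁)
    (hpos : ∀ t ∈ Icc t₀ t₁, ∀ i, 0 < x t i)
    (hbox : ∀ t ∈ Icc t₀ t₁, ∀ i, |Real.log (x t i)| ≤ N₀)
    (hxc : ContinuousOn x (Icc t₀ t₁)) (hhc : ∀ j, ContinuousOn (h j) (Icc t₀ t₁))
    (hint : ∀ j, ∀ s ∈ Icc t₀ t₁, ∀ t ∈ Icc t₀ t₁, s ≤ t →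
      E.W j ⬝ᵥ (x t - x s) ≤ ∫ τ in s..t, h j τ)
    (hdec : ∀ t ∈ Icc t₀ t₁, ∀ j, (fun i => Real.log (x t i)) ∈ E.D j → h j t ≤ -c) :
    E.Φ (fun i => Real.log (x t₁ i)) ≤ E.Φ (fun i => Real.log (x t₀ i)) - c * (t₁ - t₀) := by
  classical
  have hexp : ∀ t ∈ Icc t₀ t₁, (fun i => Real.exp (Real.log (x t i))) = x t := by
    intro t ht
    funext i
    exact Real.exp_log (hpos t ht i)
  have hlc : ContinuousOn (fun t => (fun i => Real.log (x t i))) (Icc t₀ t₁) := by
    apply continuousOn_pi.2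
    intro i
    apply ContinuousOn.log
    · exact (continuousOn_pi.1 hxc) i
    · intro t ht
      exact (hpos t ht i).ne'
  set f : Fin E.n → ℝ → ℝ := fun j t => (E.W j ⬝ᵥ x t) - E.b j with hf
  -- continuous extension of the bounds
  set g : Fin E.n → ℝ → ℝ := fun j τ => h j (max t₀ (min t₁ τ)) with hg
  have hclamp : ∀ τ ∈ Icc t₀ t₁, max t₀ (min t₁ τ) = τ := by
    intro τ hτ
    rw [min_eq_right hτ.2, max_eq_right hτ.1]
  have hgc : ∀ j, Continuous (g j) := by
    intro j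
    apply (hhc j).comp_continuous (by fun_prop)
    intro τ
    exact ⟨le_max_left _ _, max_le h01 (min_le_left _ _)⟩
  set P : Fin E.n → ℝ → ℝ := fun j t => ∫ τ in t₀..t, g j τ with hPdef
  have hPder : ∀ j t, HasDerivAt (P j) (g j t) t := fun j t =>
    ((hgc j).integral_hasStrictDerivAt t₀ t).hasDerivAt
  have hPsub : ∀ j, ∀ s ∈ Icc t₀ t₁, ∀ t ∈ Icc t₀ t₁, s ≤ t →
      P j t - P j s = ∫ τ in s..t, h j τ := by
    intro j s hs t ht hst
    have e1 : P j t - P j s = ∫ τ in s..t, g j τ := by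
      rw [hPdef]
      exact intervalIntegral.integral_interval_sub_left ((hgc j).intervalIntegrable _ _)
        ((hgc j).intervalIntegrable _ _)
    rw [e1]
    apply intervalIntegral.integral_congr
    intro τ hτ
    rw [uIcc_of_le hst] at hτ
    show h j (max t₀ (min t₁ τ)) = h j τ
    rw [hclamp τ ⟨hs.1.trans hτ.1, hτ.2.trans ht.2⟩]
  set S : Fin E.n → Set ℝ :=
    fun j => Icc t₀ t₁ ∩ (fun t => (fun i => Real.log (x t i))) ⁻¹' (E.D j) with hS
  have hcov : ∀ t ∈ Icc t₀ t₁, ∃ j, t ∈ S j := by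
    intro t ht
    obtain ⟨j, hj⟩ := E.cover _ (hbox t ht)
    exact ⟨j, ht, hj⟩
  have hval : ∀ t ∈ Icc t₀ t₁, ∀ j, t ∈ S j → E.Φ (fun i => Real.log (x t i)) = f j t := by
    intro t ht j hj
    have h := E.eq j _ hj.2 (hbox t ht)
    rw [h]
    simp only [hf]
    rw [hexp t ht]
  have hclosed : ∀ j, IsClosed (S j) := by
    intro j
    exact hlc.preimage_isClosed_of_isClosed isClosed_Icc (E.closed j)
  have hmax : ∀ t ∈ Icc t₀ t₁, ∀ j, t ∈ S j → ∀ j', f j' t ≤ f j t := by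
    intro t ht j hj j'
    rw [← hval t ht j hj]
    have h := E.le j' (fun i => Real.log (x t i))
    rw [hexp t ht] at h
    exact h
  have hcont : ∀ j, ContinuousOn (f j) (Icc t₀ t₁) := by
    intro j
    have h2 : ContinuousOn (fun s => ∑ i, E.W j i * x s i) (Icc t₀ t₁) := by
      apply continuousOn_finsetSum
      intro i _
      exact continuousOn_const.mul ((continuousOn_pi.1 hxc) i)
    exact h2.sub continuousOn_const
  obtain ⟨j₀, h0⟩ := hcov t₀ (left_mem_Icc.2 h01)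
  obtain ⟨j₁, h1⟩ := hcov t₁ (right_mem_Icc.2 h01)
  have key := max_mono_gen f P g S (c := c) h01 hclosed hcov hmax hcont
    (by
      intro j s hs t ht hst
      rw [hPsub j s hs t ht hst]
      refine le_trans (le_of_eq ?_) (hint j s hs t ht hst)
      simp only [hf]
      rw [dotProduct_sub]
      ring)
    (by
      intro j t ht
      exact (hPder j t).hasDerivWithinAt)
    (by
      intro t ht j hj
      have hts : t ∈ Icc t₀ t₁ := ⟨ht.1, ht.2.le⟩
      show h j (max t₀ (min t₁ t)) ≤ -c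
      rw [hclamp t hts]
      exact hdec t hts j hj.2)
    h0 h1
  rw [hval t₁ (right_mem_Icc.2 h01) j₁ h1, hval t₀ (left_mem_Icc.2 h01) j₀ h0]
  exact key

end Vale.Agent.P072
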