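import Vale.Agent.Lib.P072.V.VInt
import Vale.Agent.Lib.P072.V.VFlux
import Vale.Agent.Lib.P072.V.VMax
import Vale.Agent.Lib.P072.Birch

/-!
# P072: every bounded solution visits a fixed compact set (time-dependent rates)

The proof of `hit` with `N.worst (Function.Embedding.refl _) ε (E.W j) x` in place of `E.W j ⬝ᵥ N.field k x`
(`FluxIneqV.re`, `continuous_worst`), and `RE.descentV` (with `h j τ = N.worst _ ε (E.W j) (x τ)` and `Admissible.dot_le`, `le_worst`)
in place of `RE.descent`.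
-/

namespace Vale.Agent.P072

open MeasureTheory Set Matrix

theorem hitV {d : ℕ} (N : Network d) (hN : N.WeaklyReversible) (ε : ℝ) (hε : 0 < ε)
    (hε1 : ε ≤ ε⁻¹) (c : Fin d → ℝ) (hc : ∀ i, 0 < c i) : ∃ U₁ : ℝ,
      ∀ κ, N.Admissible ε κ → ∀ x : ℝ → Fin d → ℝ, N.IsSolutionV κ (Ici 0) x →
        (∀ t, 0 ≤ t → ∀ i, 0 < x t i) → (∀ t, 0 ≤ t → x t - c ∈ N.stoich) →
        (∃ B : ℝ, ∀ t, 0 ≤ t → ∀ i, |Real.log (x t i)| ≤ B) →
        ∃ t, 0 ≤ t ∧ ∀ i, |Real.log (x t i)| ≤ U₁ := by
  classical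
  obtain ⟨Λ, M₀, hΛ, hM₀, hRE⟩ := hasRE (Fin d) (N.diffs (Function.Embedding.refl _))
  obtain ⟨M₁, hM₁, hF⟩ := flux_unif N hN ε hε
  have hFV : N.FluxIneqV ε M₁ := hF
  obtain ⟨CA, hCA0, hCA⟩ := N.exists_CA
  set M : ℝ := max M₀ M₁ with hMdef
  obtain ⟨U₁, hU⟩ := birch c hc (Λ * M)
  refine ⟨U₁, ?_⟩
  intro κ hκ x hx hpos hclass hBex
  obtain ⟨B, hB⟩ := hBex
  by_contra hcon
  push Not at hcon
  obtain ⟨E⟩ := hRE M (le_max_left _ _) B
  have hM1 : 1 ≤ M := hM₀.trans (le_max_left _ _)
  -- the strict decrease at one point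
  have hneg : ∀ (j : Fin E.n), (∃ r ∈ N.reactions, (E.W j ⬝ᵥ rvec r) ≠ 0) →
      ∀ u : Fin d → ℝ, (∀ i, |u i| ≤ B) → u ∈ E.D j →
        N.worst (Function.Embedding.refl (Fin d)) ε (E.W j) (fun i => Real.exp (u i)) < 0 := by
    intro j hj u hu huD
    have h := (hFV.re hε hε1 (Function.Embedding.refl (Fin d)) E hCA (b := 0) le_rfl
      (by rw [mul_zero, zero_add]; exact le_max_right _ _)
      (fun i => Real.exp (u i)) (fun i => Real.exp_pos _)
      (by intro i; simpa [Real.log_exp] using hu i)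
      (by intro i hi; exact absurd ⟨i, rfl⟩ hi) j
      (by
        have : (fun i => Real.log (Real.exp (u ((Function.Embedding.refl (Fin d)) i)))) = u := by
          funext i
          simp [Real.log_exp]
        rw [this]
        exact huD)).2
    have h2 := h (by
      obtain ⟨r, hr, hr2⟩ := hj
      exact ⟨r, hr, hr2⟩)
    exact h2
  -- the uniform decrease
  have hunif : ∀ j : Fin E.n, ∃ cj : ℝ, 0 < cj ∧ ((∃ r ∈ N.reactions, (E.W j ⬝ᵥ rvec r) ≠ 0) →
      ∀ u : Fin d → ℝ, (∀ i, |u i| ≤ B) → u ∈ E.D j →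
        N.worst (Function.Embedding.refl (Fin d)) ε (E.W j) (fun i => Real.exp (u i)) ≤ -cj) := by
    intro j
    by_cases hj : ∃ r ∈ N.reactions, (E.W j ⬝ᵥ rvec r) ≠ 0
    · have hcompact : IsCompact (E.D j ∩ {u : Fin d → ℝ | ∀ i, |u i| ≤ B}) := by
        have h1 : {u : Fin d → ℝ | ∀ i, |u i| ≤ B} = Set.pi univ (fun _ => Icc (-B) B) := by
          ext u
          simp only [Set.mem_ofPred_eq, mem_pi, mem_univ, forall_const, mem_Icc, abs_le]
        rw [h1]
        exact (isCompact_univ_pi (fun _ => isCompact_Icc)).inter_left (E.closed j)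
      have hcont : Continuous (fun u : Fin d → ℝ =>
          N.worst (Function.Embedding.refl (Fin d)) ε (E.W j) (fun i => Real.exp (u i))) := by
        have h1 : Continuous (fun u : Fin d → ℝ => (fun i => Real.exp (u i))) := by
          fun_prop
        exact (N.continuous_worst (Function.Embedding.refl (Fin d)) ε (E.W j)).comp h1
      by_cases hne : (E.D j ∩ {u : Fin d → ℝ | ∀ i, |u i| ≤ B}).Nonempty
      · obtain ⟨u₀, hu₀, hmax⟩ := hcompact.exists_isMaxOn hne hcont.continuousOn
        have h0 := hneg j hj u₀ hu₀.2 hu₀.1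
        refine ⟨-(N.worst (Function.Embedding.refl (Fin d)) ε (E.W j)
          (fun i => Real.exp (u₀ i))), by linarith, ?_⟩
        intro _ u hu huD
        have h3 : N.worst (Function.Embedding.refl (Fin d)) ε (E.W j)
            (fun i => Real.exp (u i)) ≤
            N.worst (Function.Embedding.refl (Fin d)) ε (E.W j)
              (fun i => Real.exp (u₀ i)) := hmax ⟨huD, hu⟩
        linarith
      · refine ⟨1, one_pos, ?_⟩
        intro _ u hu huD
        exact absurd ⟨u, huD, hu⟩ hne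
    · exact ⟨1, one_pos, fun h => absurd h hj⟩
  choose cf hcf0 hcf using hunif
  have hlogbox : ∀ t, 0 ≤ t → ∀ i, |(fun i => Real.log (x t i)) i| ≤ B := fun t ht i => hB t ht i
  obtain ⟨j₀, hj₀⟩ := E.cover (fun i => Real.log (x 0 i)) (hlogbox 0 le_rfl)
  obtain ⟨jm, -, hjm⟩ := Finset.exists_min_image (Finset.univ : Finset (Fin E.n)) cf
    ⟨j₀, Finset.mem_univ _⟩
  set c₀ : ℝ := cf jm with hc₀
  have hc₀pos : 0 < c₀ := hcf0 jm
  -- orthogonality to the stoichiometric subspace never happens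
  have hnot : ∀ t, 0 ≤ t → ∀ j, (fun i => Real.log (x t i)) ∈ E.D j →
      ∃ r ∈ N.reactions, (E.W j ⬝ᵥ rvec r) ≠ 0 := by
    intro t ht j hj
    by_contra hno
    push Not at hno
    have horth : ∀ v ∈ N.stoich, v ⬝ᵥ E.W j = 0 := by
      intro v hv
      unfold Network.stoich at hv
      induction hv using Submodule.span_induction with
      | mem v hv =>
        obtain ⟨r, hr, rfl⟩ := hv
        rw [dotProduct_comm]
        exact hno r hr
      | zero => simp
      | add v w _ _ h1 h2 => rw [add_dotProduct, h1, h2, add_zero]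
      | smul a v _ h1 => rw [smul_dotProduct, h1, smul_zero]
    have h4 := hU N.stoich (x t) (hpos t ht) (hclass t ht) (E.W j) horth (by
      intro i
      have h5 := E.near j _ hj (hlogbox t ht) i
      rw [abs_sub_comm]
      exact h5)
    obtain ⟨i, hi⟩ := hcon t ht
    exact absurd (h4 i) (not_le.mpr hi)
  -- bound from below
  set L : ℝ := ∑ _i : Fin d, Real.exp B * (|B| + Λ * M) with hL
  have hΛM : 0 ≤ Λ * M := mul_nonneg (by linarith) (by linarith)
  have hL0 : 0 ≤ L := Finset.sum_nonneg (fun i _ => mul_nonneg (Real.exp_pos _).le (by positivity))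
  have hlower : ∀ t, 0 ≤ t → -L ≤ E.Φ (fun i => Real.log (x t i)) := by
    intro t ht
    refine le_trans ?_ (E.lower _ (hlogbox t ht))
    rw [hL, ← Finset.sum_neg_distrib]
    refine Finset.sum_le_sum (fun i _ => ?_)
    have hu := abs_le.mp (hB t ht i)
    set u := Real.log (x t i)
    have he : Real.exp u ≤ Real.exp B := Real.exp_le_exp.mpr hu.2
    have hep := Real.exp_pos u
    have h6 : -(|B| + Λ * M) ≤ u - Λ * M := by
      have := le_abs_self B
      linarith
    have h7 : Real.exp u * (-(|B| + Λ * M)) ≤ Real.exp u * (u - Λ * M) :=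
      mul_le_mul_of_nonneg_left h6 hep.le
    have h8 : Real.exp u * (|B| + Λ * M) ≤ Real.exp B * (|B| + Λ * M) :=
      mul_le_mul_of_nonneg_right he (by positivity)
    linarith
  -- the descent
  set Φ₀ := E.Φ (fun i => Real.log (x 0 i)) with hΦ₀
  have hdesc : ∀ t₁, 0 ≤ t₁ → E.Φ (fun i => Real.log (x t₁ i)) ≤ Φ₀ - c₀ * (t₁ - 0) := by
    intro t₁ ht₁
    have hxc : ContinuousOn x (Icc 0 t₁) := hx.1.mono Icc_subset_Ici_self
    have hhc : ∀ j : Fin E.n, ContinuousOn
        (fun τ => N.worst (Function.Embedding.refl (Fin d)) ε (E.W j) (x τ)) (Icc 0 t₁) :=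
      fun j => (N.continuous_worst (Function.Embedding.refl (Fin d)) ε (E.W j)).comp_continuousOn
        hxc
    refine E.descentV x
      (fun j τ => N.worst (Function.Embedding.refl (Fin d)) ε (E.W j) (x τ)) ht₁
      (fun t ht => hpos t ht.1) (fun t ht => hB t ht.1) hxc hhc ?_ ?_
    · intro j s hs t ht hst
      have hsub : (Ico 0 (t + 1) : Set ℝ) ⊆ Ici 0 := fun y hy => hy.1
      exact hκ.dot_le (isSolutionV_mono hsub hx) hs.1 hst (lt_add_one t)
        (Function.Embedding.refl (Fin d)) (E.W j)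
        (fun τ => N.worst (Function.Embedding.refl (Fin d)) ε (E.W j) (x τ))
        ((hhc j).mono (Icc_subset_Icc hs.1 ht.2))
        (fun τ hτ => N.le_worst (Function.Embedding.refl (Fin d)) ε (E.W j) (x τ) (κ τ)
          (fun r hr => (hκ r hr).2 τ (hs.1.trans hτ.1)))
    · intro t ht j hj
      have h9 := hcf j (hnot t ht.1 j hj) (fun i => Real.log (x t i)) (hlogbox t ht.1) hj
      have hexp : (fun i => Real.exp ((fun i => Real.log (x t i)) i)) = x t := by
        funext i
        exact Real.exp_log (hpos t ht.1 i)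
      rw [hexp] at h9
      have h10 := hjm j (Finset.mem_univ _)
      show N.worst (Function.Embedding.refl (Fin d)) ε (E.W j) (x t) ≤ -c₀
      linarith
  have hfin := hdesc ((|Φ₀| + L) / c₀ + 1) (by positivity)
  have hlow := hlower ((|Φ₀| + L) / c₀ + 1) (by positivity)
  have h11 : c₀ * ((|Φ₀| + L) / c₀ + 1 - 0) = |Φ₀| + L + c₀ := by
    field_simp
    ring
  rw [h11] at hfin
  have := le_abs_self Φ₀
  linarith

end Vale.Agent.P072
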