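import Vale.Agent.Lib.P072.V.VOde
import Vale.Agent.Lib.P072.OdeEx

/-!
# P072: existence of global solutions (time-dependent rates)

As in OdeEx.lean, with `carath_exists` for `F s v = N.field (κ |s|) (OdeEx_clip lo hi v)`: it is bounded and Lipschitz in `v`
uniformly in `s` (rates in `[ε, ε⁻¹]`, each `monom` is bounded and Lipschitz on the box). As long as the solution is
in the open box it is a solution of the original equation, so by `hB` it never leaves.
-/

namespace Vale.Agent.P072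

open MeasureTheory Set Matrix

variable {d : ℕ}

theorem VOdeEx_lip (g : (Fin d → ℝ) → ℝ) (hg : ContDiff ℝ 1 g) (lo hi : ℝ) (h : lo ≤ hi) :
    ∃ K M : ℝ, 0 ≤ K ∧ 0 ≤ M ∧
      (∀ u v, |g (OdeEx_clip lo hi u) - g (OdeEx_clip lo hi v)| ≤ K * ‖u - v‖) ∧
      ∀ u, |g (OdeEx_clip lo hi u)| ≤ M := by
  have hc : IsCompact (Icc (fun _ : Fin d => lo) (fun _ => hi)) := isCompact_Icc
  have hll : LocallyLipschitz g := ContDiff.locallyLipschitz (𝕂 := ℝ) hg
  have hll2 : LocallyLipschitzOn (Icc (fun _ : Fin d => lo) (fun _ => hi)) g :=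
    hll.locallyLipschitzOn
  obtain ⟨K, hK⟩ := hll2.exists_lipschitzOnWith_of_compact hc
  obtain ⟨M, hM⟩ := hc.exists_bound_of_continuousOn hg.continuous.continuousOn
  have hM0 : 0 ≤ M := (norm_nonneg _).trans (hM (fun _ => lo) ⟨le_rfl, fun _ => h⟩)
  refine ⟨K, M, K.2, hM0, fun u v => ?_, fun u => ?_⟩
  · have h1 := hK.dist_le_mul _ (OdeEx_clip_mem h u) _ (OdeEx_clip_mem h v)
    have h2 := (OdeEx_clip_lipschitz (d := d) lo hi).dist_le_mul u v
    rw [NNReal.coe_one, one_mul] at h2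
    rw [Real.dist_eq] at h1
    rw [← dist_eq_norm]
    exact h1.trans (mul_le_mul_of_nonneg_left h2 K.2)
  · have h1 := hM _ (OdeEx_clip_mem h u)
    rwa [Real.norm_eq_abs] at h1

theorem VOdeEx_field (N : Network d) (ε : ℝ) (κ : ℝ → Cx d × Cx d → ℝ)
    (hκ : N.Admissible ε κ) (lo hi : ℝ) (h : lo ≤ hi) :
    ∃ L C : ℝ, (∀ s u v, ‖N.field (κ |s|) (OdeEx_clip lo hi u) -
        N.field (κ |s|) (OdeEx_clip lo hi v)‖ ≤ L * ‖u - v‖) ∧
      ∀ s u, ‖N.field (κ |s|) (OdeEx_clip lo hi u)‖ ≤ C := by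
  choose K M hK0 hM0 hK hM using fun y : Cx d => VOdeEx_lip (d := d) (fun x => monom x y)
    (contDiff_monom y) lo hi h
  have hk : ∀ r ∈ N.reactions, ∀ s : ℝ, |κ |s| r| ≤ |ε| + |ε⁻¹| := by
    intro r hr s
    have h1 := (hκ r hr).2 |s| (abs_nonneg s)
    rw [abs_le]
    constructor
    · have h2 := h1.1
      linarith [neg_abs_le ε, abs_nonneg ε⁻¹]
    · have h2 := h1.2
      linarith [le_abs_self ε⁻¹, abs_nonneg ε]
  refine ⟨∑ r ∈ N.reactions, (|ε| + |ε⁻¹|) * K r.1 * ‖rvec r‖,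
    ∑ r ∈ N.reactions, (|ε| + |ε⁻¹|) * M r.1 * ‖rvec r‖, ?_, ?_⟩
  · intro s u v
    unfold Network.field
    rw [← Finset.sum_sub_distrib, Finset.sum_mul]
    refine (norm_sum_le _ _).trans (Finset.sum_le_sum fun r hr => ?_)
    rw [← sub_smul, ← mul_sub, norm_smul, norm_mul, Real.norm_eq_abs, Real.norm_eq_abs]
    calc |κ |s| r| * |monom (OdeEx_clip lo hi u) r.1 - monom (OdeEx_clip lo hi v) r.1| * ‖rvec r‖
        ≤ (|ε| + |ε⁻¹|) * (K r.1 * ‖u - v‖) * ‖rvec r‖ := by
          refine mul_le_mul_of_nonneg_right ?_ (norm_nonneg _)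
          exact mul_le_mul (hk r hr s) (hK r.1 u v) (abs_nonneg _) (by positivity)
      _ = (|ε| + |ε⁻¹|) * K r.1 * ‖rvec r‖ * ‖u - v‖ := by ring
  · intro s u
    unfold Network.field
    refine (norm_sum_le _ _).trans (Finset.sum_le_sum fun r hr => ?_)
    rw [norm_smul, norm_mul, Real.norm_eq_abs, Real.norm_eq_abs]
    refine mul_le_mul_of_nonneg_right ?_ (norm_nonneg _)
    exact mul_le_mul (hk r hr s) (hM r.1 u) (abs_nonneg _) (by positivity)

theorem VOdeEx_meas (N : Network d) (ε : ℝ) (κ : ℝ → Cx d × Cx d → ℝ)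
    (hκ : N.Admissible ε κ) (lo hi : ℝ) (x : ℝ → Fin d → ℝ) (hx : Continuous x) :
    AEStronglyMeasurable (fun s => N.field (κ |s|) (OdeEx_clip lo hi (x s))) volume := by
  unfold Network.field
  refine Finset.aestronglyMeasurable_fun_sum _ fun r hr => ?_
  have h1 : Measurable fun s : ℝ => κ |s| r := (hκ r hr).1.comp measurable_id.abs
  have h2 : Continuous fun s : ℝ => monom (OdeEx_clip lo hi (x s)) r.1 :=
    (contDiff_monom r.1).continuous.comp ((OdeEx_clip_lipschitz lo hi).continuous.comp hx)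
  exact ((h1.mul h2.measurable).smul_const (rvec r)).aestronglyMeasurable

theorem odeV_exists (N : Network d) (ε : ℝ) (hε : 0 < ε) (hB : N.BoundedV ε)
    (κ : ℝ → Cx d × Cx d → ℝ) (hκ : N.Admissible ε κ) (x₀ : Fin d → ℝ) (hx₀ : ∀ i, 0 < x₀ i) :
    ∃ x : ℝ → Fin d → ℝ, x 0 = x₀ ∧ N.IsSolutionV κ (Ici 0) x := by
  obtain ⟨U, hU⟩ : ∃ U : ℝ, ∀ i, |Real.log (x₀ i)| ≤ U := by
    obtain ⟨U, hU⟩ := (Set.finite_range fun i => |Real.log (x₀ i)|).bddAbove
    exact ⟨U, fun i => hU ⟨i, rfl⟩⟩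
  obtain ⟨B, hBB⟩ := hB U
  set B2 := max (max B U) 0 with hB2
  have hB2B : B ≤ B2 := (le_max_left _ _).trans (le_max_left _ _)
  have hB2U : U ≤ B2 := (le_max_right _ _).trans (le_max_left _ _)
  have hB20 : 0 ≤ B2 := le_max_right _ _
  set lo := Real.exp (-(B2 + 1)) with hlo
  set hi := Real.exp (B2 + 1) with hhi
  have hlopos : 0 < lo := Real.exp_pos _
  have hlohi : lo ≤ hi := Real.exp_le_exp.mpr (by linarith)
  obtain ⟨L, C, hL, hC⟩ := VOdeEx_field N ε κ hκ lo hi hlohi
  obtain ⟨z, hzcont, hz0, hz⟩ := carath_exists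
    (fun s v => N.field (κ |s|) (OdeEx_clip lo hi v)) L C
    (fun x hx => VOdeEx_meas N ε κ hκ lo hi x hx) hL hC x₀
  have hzc : ContinuousOn z (Ici 0) := hzcont.continuousOn
  -- the box
  have hbox : ∀ a : ℝ, 0 < a → |Real.log a| ≤ B2 → lo < a ∧ a < hi := by
    intro a ha h
    have h1 := abs_le.mp h
    constructor
    · rw [← Real.exp_log ha, hlo]
      exact Real.exp_lt_exp.mpr (by linarith [h1.1])
    · rw [← Real.exp_log ha, hhi]
      exact Real.exp_lt_exp.mpr (by linarith [h1.2])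
  have hin : ∀ t, 0 ≤ t → ∀ i, lo < z t i ∧ z t i < hi := by
    by_contra hcon
    push Not at hcon
    obtain ⟨t₁, ht₁, i₁, hi₁⟩ := hcon
    -- the bad set is closed
    let bad : Set ℝ := {t | 0 ≤ t ∧ ∃ i, ¬ (lo < z t i ∧ z t i < hi)}
    have hbad_ne : bad.Nonempty := ⟨t₁, ht₁, i₁, fun h => absurd (hi₁ h.1) (not_le.mpr h.2)⟩
    have hbad_closed : IsClosed bad := by
      have h1 : bad = ⋃ i : Fin d, {t | 0 ≤ t ∧ ¬ (lo < z t i ∧ z t i < hi)} := by
        ext t
        simp only [bad, mem_ofPred_eq, mem_iUnion]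
        constructor
        · rintro ⟨h1, i, h2⟩
          exact ⟨i, h1, h2⟩
        · rintro ⟨i, h1, h2⟩
          exact ⟨h1, i, h2⟩
      rw [h1]
      refine isClosed_iUnion_of_finite fun i => ?_
      have h2 : {t : ℝ | 0 ≤ t ∧ ¬ (lo < z t i ∧ z t i < hi)} =
          Ici 0 ∩ (fun t => z t i) ⁻¹' (Ioo lo hi)ᶜ := by
        ext t
        simp [mem_Ioo]
      rw [h2]
      have h3 : ContinuousOn (fun t => z t i) (Ici 0) := fun t ht =>
        (continuous_apply i).continuousAt.comp_continuousWithinAt (hzc t ht)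
      exact h3.preimage_isClosed_of_isClosed isClosed_Ici isOpen_Ioo.isClosed_compl
    have hbad_bdd : BddBelow bad := ⟨0, fun t ht => ht.1⟩
    set T := sInf bad with hT
    have hTbad : T ∈ bad := hbad_closed.csInf_mem hbad_ne hbad_bdd
    have hT0 : 0 ≤ T := hTbad.1
    have hgood : ∀ t ∈ Ico 0 T, ∀ i, lo < z t i ∧ z t i < hi := by
      intro t ht i
      by_contra h
      have : t ∈ bad := ⟨ht.1, i, h⟩
      exact absurd (csInf_le hbad_bdd this) (not_le.mpr ht.2)
    have hgood0 : ∀ i, lo < z 0 i ∧ z 0 i < hi := fun i => by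
      rw [hz0]
      exact hbox _ (hx₀ i) ((hU i).trans hB2U)
    have hTpos : 0 < T := by
      rcases hT0.lt_or_eq with h | h
      · exact h
      · obtain ⟨_, i, hi'⟩ := hTbad
        rw [← h] at hi'
        exact absurd (hgood0 i) hi'
    have hsol : N.IsSolutionV κ (Ico 0 T) z := by
      refine ⟨hzcont.continuousOn, fun t ht => ?_⟩
      rw [hz t ht.1, hz0]
      congr 1
      refine intervalIntegral.integral_congr fun s hs => ?_
      rw [uIcc_of_le ht.1] at hs
      have hs' : s ∈ Ico 0 T := ⟨hs.1, hs.2.trans_lt ht.2⟩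
      show N.field (κ |s|) (OdeEx_clip lo hi (z s)) = N.field (κ s) (z s)
      rw [OdeEx_clip_eq fun i => ⟨(hgood s hs' i).1.le, (hgood s hs' i).2.le⟩,
        abs_of_nonneg hs.1]
    have hbd := hBB κ hκ T z hsol (fun t ht i => hlopos.trans (hgood t ht i).1)
      (fun i => by rw [hz0]; exact hU i)
    have hTgood : ∀ i, lo < z T i ∧ z T i < hi := by
      intro i
      have h3 : ContinuousWithinAt (fun t => z t i) (Ico 0 T) T :=
        (continuous_apply i).continuousAt.comp_continuousWithinAt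
          ((hzc T hT0).mono Ico_subset_Ici_self)
      have hcl : T ∈ closure (Ico 0 T) := by
        rw [closure_Ico hTpos.ne]
        exact ⟨hT0, le_rfl⟩
      have hmem : z T i ∈ Icc (Real.exp (-B2)) (Real.exp B2) := by
        have h4 := h3.mem_closure hcl (t := Icc (Real.exp (-B2)) (Real.exp B2)) ?_
        · rwa [isClosed_Icc.closure_eq] at h4
        · intro t ht
          have h5 := abs_le.mp ((hbd t ht i).trans hB2B)
          have hpos : 0 < z t i := hlopos.trans (hgood t ht i).1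
          have h6 : Real.exp (-B2) ≤ z t i := by
            rw [← Real.exp_log hpos]
            exact Real.exp_le_exp.mpr h5.1
          have h7 : z t i ≤ Real.exp B2 := by
            rw [← Real.exp_log hpos]
            exact Real.exp_le_exp.mpr h5.2
          exact ⟨h6, h7⟩
      constructor
      · refine lt_of_lt_of_le ?_ hmem.1
        exact Real.exp_lt_exp.mpr (by linarith)
      · refine lt_of_le_of_lt hmem.2 ?_
        exact Real.exp_lt_exp.mpr (by linarith)
    obtain ⟨_, i, hi'⟩ := hTbad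
    exact hi' (hTgood i)
  refine ⟨z, hz0, hzcont.continuousOn, fun t ht => ?_⟩
  have ht0 : (0 : ℝ) ≤ t := ht
  rw [hz t ht0, hz0]
  congr 1
  refine intervalIntegral.integral_congr fun s hs => ?_
  rw [uIcc_of_le ht0] at hs
  show N.field (κ |s|) (OdeEx_clip lo hi (z s)) = N.field (κ s) (z s)
  rw [OdeEx_clip_eq fun i => ⟨(hin s hs.1 i).1.le, (hin s hs.1 i).2.le⟩, abs_of_nonneg hs.1]

end Vale.Agent.P072
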