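import Vale.Agent.Lib.P072.V.VReg
import Vale.Agent.Lib.P072.V.VOdeEx
import Vale.Agent.Lib.P072.V.VHit
import Vale.Agent.Lib.P072.Final

/-!
# P072: the permanence theorem for measurable time-dependent rates
-/

namespace Vale.Agent.P072

open MeasureTheory Set Matrix

theorem permanentV_aux {d : ℕ} (N : Network d) (hN : N.WeaklyReversible) (ε : ℝ) (hε : 0 < ε)
    (hε1 : ε ≤ ε⁻¹) (c : Fin d → ℝ) (hc : ∀ i, 0 < c i) : N.PermanentV ε c := by
  have hB : N.BoundedV ε := regionV N hN ε hε hε1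
  -- solutions on `[0, ∞)` starting in the class stay in the class
  have hstay : ∀ κ, N.Admissible ε κ → ∀ x : ℝ → Fin d → ℝ, N.IsSolutionV κ (Ici 0) x →
      x 0 ∈ N.posClass c → ∀ t, 0 ≤ t → x t ∈ N.posClass c := by
    intro κ hκ x hx h0 t ht
    have hx' : N.IsSolutionV κ (Ico 0 (t + 1)) x := isSolutionV_mono (fun s hs => hs.1) hx
    have ht' : t ∈ Ico 0 (t + 1) := ⟨ht, by linarith⟩
    refine ⟨odeV_pos N ε hB κ hκ (t + 1) x hx' h0.1 t ht', ?_⟩
    have h1 := odeV_stoich N ε κ hκ (t + 1) x hx' t ht'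
    have h2 : x t - c = (x t - x 0) + (x 0 - c) := by abel
    rw [h2]
    exact N.stoich.add_mem h1 h0.2
  refine ⟨fun κ hκ x₀ hx₀ => odeV_exists N ε hε hB κ hκ x₀ hx₀.1, ?_, hstay, ?_⟩
  · intro κ hκ x hx _ T y hy hy0
    exact odeV_unique N ε κ hκ T y x hy (isSolutionV_mono (fun s hs => hs.1) hx) hy0
  · obtain ⟨U₁, hU₁⟩ := hitV N hN ε hε hε1 c hc
    obtain ⟨B, hB₁⟩ := hB U₁
    refine ⟨_, isCompact_class N c B, fun x hx => hx.1, fun κ hκ x hx hx0 => ?_⟩
    have hst := hstay κ hκ x hx hx0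
    -- a bound for the whole solution
    obtain ⟨B', hB'⟩ := hB (∑ i, |Real.log (x 0 i)|)
    have hbd : ∀ t, 0 ≤ t → ∀ i, |Real.log (x t i)| ≤ B' := by
      intro t ht
      refine hB' κ hκ (t + 1) x (isSolutionV_mono (fun s hs => hs.1) hx)
        (fun s hs => (hst s hs.1).1) (fun i => ?_) t ⟨ht, by linarith⟩
      exact Finset.single_le_sum (f := fun i => |Real.log (x 0 i)|) (fun i _ => abs_nonneg _)
        (Finset.mem_univ i)
    obtain ⟨t₁, ht₁, h1⟩ := hU₁ κ hκ x hx (fun t ht => (hst t ht).1) (fun t ht => (hst t ht).2)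
      ⟨B', hbd⟩
    refine ⟨t₁, fun t ht => ⟨hst t (ht₁.trans ht), ?_⟩⟩
    -- shift the time
    obtain ⟨hκ', hx'⟩ := hκ.shift hx ht₁
    have h5 := hB₁ (fun s => κ (s + t₁)) hκ' (t - t₁ + 1) (fun s => x (s + t₁))
      (isSolutionV_mono (fun s hs => hs.1) hx')
      (fun s hs => (hst (s + t₁) (add_nonneg hs.1 ht₁)).1) (by simpa using h1) (t - t₁)
      ⟨sub_nonneg.2 ht, by linarith⟩
    simpa using h5

theorem permanentV {d : ℕ} (N : Network d) (hN : N.WeaklyReversible) (ε : ℝ) (hε : 0 < ε)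
    (c : Fin d → ℝ) (hc : ∀ i, 0 < c i) : N.PermanentV ε c := by
  rcases le_or_gt ε ε⁻¹ with h | h
  · exact permanentV_aux N hN ε hε h c hc
  · rcases N.reactions.eq_empty_or_nonempty with hR | ⟨r, hr⟩
    · -- no reactions: all rates are admissible for all `ε`
      have h1 : ∀ κ, N.Admissible ε κ → N.Admissible 1 κ := by
        intro κ _ r hr
        rw [hR] at hr
        exact absurd hr (Finset.notMem_empty r)
      have h2 := permanentV_aux N hN 1 one_pos (by simp) c hc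
      obtain ⟨K, hK1, hK2, hK3⟩ := h2.exists_compact
      exact ⟨fun κ hκ => h2.exists_solution κ (h1 κ hκ), fun κ hκ => h2.unique κ (h1 κ hκ),
        fun κ hκ => h2.mem_class κ (h1 κ hκ), K, hK1, hK2, fun κ hκ => hK3 κ (h1 κ hκ)⟩
    · -- no rates are admissible
      have h1 : ∀ κ, ¬ N.Admissible ε κ := by
        intro κ hκ
        have h2 := (hκ r hr).2 0 le_rfl
        exact absurd (h2.1.trans h2.2) (not_le.2 h)
      exact ⟨fun κ hκ => absurd hκ (h1 κ), fun κ hκ => absurd hκ (h1 κ),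
        fun κ hκ => absurd hκ (h1 κ), ∅, isCompact_empty, Set.empty_subset _,
        fun κ hκ => absurd hκ (h1 κ)⟩

end Vale.Agent.P072
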