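import Vale.Agent.Lib.P072.V.VDefs

/-!
# P072: basic facts on solutions with time-dependent rates

`field (κ s) (x s) = ∑ r, (κ s r * monom (x s) r.1) • rvec r`, a bounded measurable function on every
compact interval on which `x` is continuous: product of the bounded measurable `κ s r` and of a continuous function.
-/

namespace Vale.Agent.P072

open MeasureTheory Set Matrix

variable {d : ℕ} {N : Network d} {ε : ℝ} {κ : ℝ → Cx d × Cx d → ℝ}

theorem vint_continuous_monom (y : Cx d) : Continuous fun x : Fin d → ℝ => monom x y := by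
  unfold monom
  fun_prop

theorem Network.Admissible.intervalIntegrable (hκ : N.Admissible ε κ) {a b : ℝ} (ha : 0 ≤ a)
    (hab : a ≤ b) {x : ℝ → Fin d → ℝ} (hx : ContinuousOn x (Icc a b)) :
    IntervalIntegrable (fun s => N.field (κ s) (x s)) volume a b := by
  have huI : uIcc a b = Icc a b := uIcc_of_le hab
  have h1 : ∀ r ∈ N.reactions,
      IntervalIntegrable (fun s => (κ s r * monom (x s) r.1) • rvec r) volume a b := by
    intro r hr
    obtain ⟨hm, hb⟩ := hκ r hr
    have hc : ContinuousOn (fun s => monom (x s) r.1 • rvec r) (uIcc a b) := by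
      rw [huI]
      exact (((vint_continuous_monom r.1).comp_continuousOn hx).smul continuousOn_const)
    have hk : IntervalIntegrable (fun s => κ s r) volume a b := by
      refine (intervalIntegrable_const (c := |ε| + |ε⁻¹|)).mono_fun'
        (hm.aestronglyMeasurable.restrict) ?_
      refine (ae_restrict_iff' measurableSet_uIoc).2 (Filter.Eventually.of_forall fun s hs => ?_)
      rw [uIoc_of_le hab] at hs
      obtain ⟨h2, h3⟩ := hb s (ha.trans hs.1.le)
      change |κ s r| ≤ |ε| + |ε⁻¹|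
      exact abs_le.2 ⟨by linarith [neg_abs_le ε, abs_nonneg ε⁻¹],
        by linarith [le_abs_self ε⁻¹, abs_nonneg ε]⟩
    refine (hk.smul_continuousOn hc).congr ?_
    intro s _
    simp only [smul_smul]
  have h2 : (fun s => N.field (κ s) (x s)) =
      ∑ r ∈ N.reactions, fun s => (κ s r * monom (x s) r.1) • rvec r := by
    funext s
    rw [Finset.sum_apply]
    rfl
  rw [h2]
  exact IntervalIntegrable.sum _ h1

/-- the integral equation between two times -/
theorem Network.Admissible.sub_eq (hκ : N.Admissible ε κ) {T : ℝ} {x : ℝ → Fin d → ℝ}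
    (hx : N.IsSolutionV κ (Ico 0 T) x) {s t : ℝ} (hs : 0 ≤ s) (hst : s ≤ t) (ht : t < T) :
    x t - x s = ∫ τ in s..t, N.field (κ τ) (x τ) := by
  have h1 := hx.2 t ⟨hs.trans hst, ht⟩
  have h2 := hx.2 s ⟨hs, hst.trans_lt ht⟩
  have i1 : IntervalIntegrable (fun τ => N.field (κ τ) (x τ)) volume 0 t :=
    hκ.intervalIntegrable le_rfl (hs.trans hst)
      (hx.1.mono fun τ hτ => ⟨hτ.1, hτ.2.trans_lt ht⟩)
  have i2 : IntervalIntegrable (fun τ => N.field (κ τ) (x τ)) volume 0 s :=
    hκ.intervalIntegrable le_rfl hs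
      (hx.1.mono fun τ hτ => ⟨hτ.1, (hτ.2.trans hst).trans_lt ht⟩)
  have h3 := intervalIntegral.integral_interval_sub_left i1 i2
  rw [← h3, h1, h2]
  abel

theorem isSolutionV_mono {I J : Set ℝ} (hIJ : J ⊆ I) {x : ℝ → Fin d → ℝ}
    (hx : N.IsSolutionV κ I x) : N.IsSolutionV κ J x :=
  ⟨hx.1.mono hIJ, fun t ht => hx.2 t (hIJ ht)⟩

/-- shift of the time -/
theorem Network.Admissible.shift (hκ : N.Admissible ε κ) {x : ℝ → Fin d → ℝ}
    (hx : N.IsSolutionV κ (Ici 0) x) {t₁ : ℝ} (ht₁ : 0 ≤ t₁) :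
    N.Admissible ε (fun s => κ (s + t₁)) ∧
      N.IsSolutionV (fun s => κ (s + t₁)) (Ici 0) (fun s => x (s + t₁)) := by
  refine ⟨fun r hr => ⟨?_, fun t ht => ?_⟩, ?_, fun t ht => ?_⟩
  · exact (hκ r hr).1.comp (measurable_id.add_const t₁)
  · exact (hκ r hr).2 (t + t₁) (by linarith)
  · refine hx.1.comp (by fun_prop) fun s hs => ?_
    simp only [mem_Ici] at hs ⊢
    linarith
  · have ht0 : (0 : ℝ) ≤ t := ht
    have h1 := hκ.sub_eq (T := t + t₁ + 1)
      (isSolutionV_mono (fun τ hτ => hτ.1) hx) ht₁ (by linarith : t₁ ≤ t + t₁) (by linarith)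
    have h2 := intervalIntegral.integral_comp_add_right (a := 0) (b := t)
      (fun τ => N.field (κ τ) (x τ)) t₁
    simp only [zero_add] at h2 ⊢
    rw [h2, ← h1]
    abel

/-- the dot product with a vector is estimated by the integral of an upper bound -/
theorem Network.Admissible.dot_le (hκ : N.Admissible ε κ) {T : ℝ} {x : ℝ → Fin d → ℝ}
    (hx : N.IsSolutionV κ (Ico 0 T) x) {s t : ℝ} (hs : 0 ≤ s) (hst : s ≤ t) (ht : t < T)
    {ι : Type} [Fintype ι] (e : ι ↪ Fin d) (W : ι → ℝ) (h : ℝ → ℝ) (hh : ContinuousOn h (Icc s t))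
    (hle : ∀ τ ∈ Icc s t, (W ⬝ᵥ fun i => N.field (κ τ) (x τ) (e i)) ≤ h τ) :
    (W ⬝ᵥ fun i => x t (e i) - x s (e i)) ≤ ∫ τ in s..t, h τ := by
  set L : (Fin d → ℝ) →L[ℝ] ℝ := ∑ i, W i • ContinuousLinearMap.proj (e i) with hL
  have hLv : ∀ v : Fin d → ℝ, L v = W ⬝ᵥ fun i => v (e i) := by
    intro v
    simp [hL, dotProduct]
  have i1 : IntervalIntegrable (fun τ => N.field (κ τ) (x τ)) volume s t :=
    hκ.intervalIntegrable hs hst
      (hx.1.mono fun τ hτ => ⟨hs.trans hτ.1, hτ.2.trans_lt ht⟩)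
  have h1 : (W ⬝ᵥ fun i => x t (e i) - x s (e i)) = L (x t - x s) := by
    rw [hLv]
    rfl
  rw [h1, hκ.sub_eq hx hs hst ht, ← ContinuousLinearMap.intervalIntegral_comp_comm L i1]
  refine intervalIntegral.integral_mono_on hst ?_ ?_ ?_
  · exact (L.integrable_comp i1.1 |> fun h => ⟨h, L.integrable_comp i1.2⟩)
  · exact (hh.mono (by rw [uIcc_of_le hst])).intervalIntegrable
  · intro τ hτ
    rw [hLv]
    exact hle τ hτ

end Vale.Agent.P072
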