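import Vale.Agent.Lib.P072.V.VInt
import Vale.Agent.Lib.P072.V.VCar
import Vale.Agent.Lib.P072.Ode

/-!
# P072: positivity, uniqueness and invariance of the classes (time-dependent rates)

`odeV_pos`: as `ode_pos` in Ode.lean. `odeV_unique`: `carath_unique` on `[0, t]`; the two solutions stay in a compact set, on
which all `monom` are Lipschitz (`contDiff_monom`), and the rates are bounded by `ε⁻¹`. `odeV_stoich`: the integral of a
function with values in the closed subspace `stoich` is in `stoich` (or apply a linear form which vanishes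
on `stoich`, as in `ode_stoich`).
-/

namespace Vale.Agent.P072

open MeasureTheory Set Matrix

variable {d : ℕ}

/-- the a priori bound for time-dependent rates -/
def Network.BoundedV (N : Network d) (ε : ℝ) : Prop :=
  ∀ U : ℝ, ∃ B : ℝ, ∀ κ, N.Admissible ε κ → ∀ T : ℝ, ∀ x : ℝ → Fin d → ℝ,
      N.IsSolutionV κ (Ico 0 T) x → (∀ t ∈ Ico 0 T, ∀ i, 0 < x t i) →
      (∀ i, |Real.log (x 0 i)| ≤ U) → ∀ t ∈ Ico 0 T, ∀ i, |Real.log (x t i)| ≤ B

theorem odeV_pos (N : Network d) (ε : ℝ) (hB : N.BoundedV ε) (κ : ℝ → Cx d × Cx d → ℝ)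
    (hκ : N.Admissible ε κ) (T : ℝ) (y : ℝ → Fin d → ℝ) (hy : N.IsSolutionV κ (Ico 0 T) y)
    (hy0 : ∀ i, 0 < y 0 i) : ∀ t ∈ Ico 0 T, ∀ i, 0 < y t i := by
  have hcont : ∀ i, ContinuousOn (fun t => y t i) (Ico 0 T) := fun i =>
    (continuous_apply i).comp_continuousOn hy.1
  obtain ⟨B, hB⟩ := hB (∑ i, |Real.log (y 0 i)|)
  refine Ico_induct (fun t => ∀ i, 0 < y t i) (fun _ => hy0) ?_ ?_
  · intro t ht ht0 hpos i
    have hb := hB κ hκ t y (isSolutionV_mono (Ico_subset_Ico_right ht.2.le) hy) hpos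
      (fun i => Finset.single_le_sum (f := fun i => |Real.log (y 0 i)|)
        (fun i _ => abs_nonneg _) (Finset.mem_univ i))
    have hlow : ∀ s ∈ Ico 0 t, Real.exp (-B) ≤ y s i := by
      intro s hs
      have h1 := (abs_le.mp (hb s hs i)).1
      calc Real.exp (-B) ≤ Real.exp (Real.log (y s i)) := Real.exp_le_exp.mpr h1
        _ = y s i := Real.exp_log (hpos s hs i)
    have hc : ContinuousWithinAt (fun t => y t i) (Ico 0 t) t :=
      (hcont i t ht).mono (Ico_subset_Ico_right ht.2.le)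
    have hne : (nhdsWithin t (Ico 0 t)).NeBot := by
      rw [← mem_closure_iff_nhdsWithin_neBot, closure_Ico ht0.ne]
      exact ⟨ht.1, le_rfl⟩
    have hge : Real.exp (-B) ≤ y t i :=
      ge_of_tendsto hc (Filter.eventually_of_mem self_mem_nhdsWithin hlow)
    exact lt_of_lt_of_le (Real.exp_pos _) hge
  · intro t ht hpos
    have h1 : ∀ᶠ s in nhdsWithin t (Ico 0 T), ∀ i, 0 < y s i := by
      rw [Filter.eventually_all]
      intro i
      exact (hcont i t ht).eventually (lt_mem_nhds (hpos t ⟨ht.1, le_rfl⟩ i))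
    rw [eventually_nhdsWithin_iff, Metric.eventually_nhds_iff] at h1
    obtain ⟨η, hη, h1⟩ := h1
    refine ⟨η, hη, fun s hs hsT => h1 ?_ ⟨ht.1.trans hs.1.le, hsT⟩⟩
    rw [Real.dist_eq, abs_lt]
    constructor <;> linarith [hs.1, hs.2]

theorem vOde_field_lipschitz (N : Network d) (ε : ℝ) (κ : ℝ → Cx d × Cx d → ℝ)
    (hκ : N.Admissible ε κ) (S : Set (Fin d → ℝ)) (hS : IsCompact S) :
    ∃ L : ℝ, ∀ s, 0 ≤ s → ∀ u ∈ S, ∀ v ∈ S,
      ‖N.field (κ s) u - N.field (κ s) v‖ ≤ L * ‖u - v‖ := by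
  have h1 : ∀ r : Cx d × Cx d, ∃ K : NNReal,
      LipschitzOnWith K (fun x : Fin d → ℝ => monom x r.1) S := fun r =>
    LocallyLipschitzOn.exists_lipschitzOnWith_of_compact hS
      ((contDiff_monom r.1).locallyLipschitz.locallyLipschitzOn)
  choose K hK using h1
  refine ⟨∑ r ∈ N.reactions, (|ε| + |ε⁻¹|) * K r * ‖rvec r‖, fun s hs u hu v hv => ?_⟩
  have h2 : N.field (κ s) u - N.field (κ s) v =
      ∑ r ∈ N.reactions, (κ s r * (monom u r.1 - monom v r.1)) • rvec r := by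
    unfold Network.field
    rw [← Finset.sum_sub_distrib]
    refine Finset.sum_congr rfl fun r _ => ?_
    rw [← sub_smul]
    congr 1
    ring
  rw [h2, Finset.sum_mul]
  refine (norm_sum_le _ _).trans (Finset.sum_le_sum fun r hr => ?_)
  rw [norm_smul, Real.norm_eq_abs, abs_mul]
  have h3 := (hκ r hr).2 s hs
  have h4 : |κ s r| ≤ |ε| + |ε⁻¹| := by
    rw [abs_le]
    constructor
    · have := neg_abs_le ε
      have := abs_nonneg ε⁻¹
      linarith [h3.1]
    · have := le_abs_self ε⁻¹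
      have := abs_nonneg ε
      linarith [h3.2]
  have h5 : |monom u r.1 - monom v r.1| ≤ K r * ‖u - v‖ := by
    have := (hK r).dist_le_mul u hu v hv
    rwa [Real.dist_eq, dist_eq_norm] at this
  calc |κ s r| * |monom u r.1 - monom v r.1| * ‖rvec r‖
      ≤ (|ε| + |ε⁻¹|) * (K r * ‖u - v‖) * ‖rvec r‖ := by
        gcongr
    _ = (|ε| + |ε⁻¹|) * K r * ‖rvec r‖ * ‖u - v‖ := by ring

theorem odeV_unique (N : Network d) (ε : ℝ) (κ : ℝ → Cx d × Cx d → ℝ)
    (hκ : N.Admissible ε κ) (T : ℝ) (y z : ℝ → Fin d → ℝ) (hy : N.IsSolutionV κ (Ico 0 T) y)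
    (hz : N.IsSolutionV κ (Ico 0 T) z) (h0 : y 0 = z 0) : ∀ t ∈ Ico 0 T, y t = z t := by
  intro t ht
  have hsub : Icc 0 t ⊆ Ico 0 T := fun s hs => ⟨hs.1, hs.2.trans_lt ht.2⟩
  have hcy : ContinuousOn y (Icc 0 t) := hy.1.mono hsub
  have hcz : ContinuousOn z (Icc 0 t) := hz.1.mono hsub
  have hK1 : IsCompact (y '' Icc 0 t) := isCompact_Icc.image_of_continuousOn hcy
  have hK2 : IsCompact (z '' Icc 0 t) := isCompact_Icc.image_of_continuousOn hcz
  obtain ⟨L, hL⟩ := vOde_field_lipschitz N ε κ hκ _ (hK1.union hK2)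
  exact carath_unique (fun s => N.field (κ s) (y s)) (fun s => N.field (κ s) (z s)) y z L t
    hcy hcz (hκ.intervalIntegrable le_rfl ht.1 hcy) (hκ.intervalIntegrable le_rfl ht.1 hcz)
    (fun s hs => hL s hs.1 _ (Or.inl (mem_image_of_mem _ hs)) _ (Or.inr (mem_image_of_mem _ hs)))
    h0 (fun τ hτ => hy.2 τ (hsub hτ)) (fun τ hτ => hz.2 τ (hsub hτ)) t ⟨ht.1, le_rfl⟩

theorem odeV_stoich (N : Network d) (ε : ℝ) (κ : ℝ → Cx d × Cx d → ℝ)
    (hκ : N.Admissible ε κ) (T : ℝ) (y : ℝ → Fin d → ℝ) (hy : N.IsSolutionV κ (Ico 0 T) y) :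
    ∀ t ∈ Ico 0 T, y t - y 0 ∈ N.stoich := by
  intro t ht
  by_contra hcon
  obtain ⟨f, hf, hker⟩ := Submodule.exists_le_ker_of_notMem hcon
  apply hf
  have hsub : Icc 0 t ⊆ Ico 0 T := fun s hs => ⟨hs.1, hs.2.trans_lt ht.2⟩
  have hcy : ContinuousOn y (Icc 0 t) := hy.1.mono hsub
  set g : (Fin d → ℝ) →L[ℝ] ℝ := LinearMap.toContinuousLinearMap f with hg
  have hgf : ∀ x, g x = f x := fun x => rfl
  have hzero : ∀ (k : Cx d × Cx d → ℝ) (x : Fin d → ℝ), g (N.field k x) = 0 := by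
    intro k x
    rw [hgf]
    have hmem : N.field k x ∈ N.stoich := by
      unfold Network.field
      refine Submodule.sum_mem _ fun r hr => Submodule.smul_mem _ _ ?_
      exact Submodule.subset_span ⟨r, hr, rfl⟩
    exact LinearMap.mem_ker.mp (hker hmem)
  have h1 : y t - y 0 = ∫ s in (0 : ℝ)..t, N.field (κ s) (y s) := by
    rw [hy.2 t ht, add_sub_cancel_left]
  rw [← hgf, h1, ← ContinuousLinearMap.intervalIntegral_comp_comm g
    (hκ.intervalIntegrable le_rfl ht.1 hcy)]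
  simp [hzero]

end Vale.Agent.P072
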