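import Vale.Agent.Lib.P072.V.VInt
import Vale.Agent.Lib.P072.V.VFlux
import Vale.Agent.Lib.P072.V.VMax
import Vale.Agent.Lib.P072.V.VOde
import Vale.Agent.Lib.P072.Region

/-!
# P072: uniform bounds for positive solutions (time-dependent rates)

The proof of Region.lean with `FluxIneqV` in place of `FluxIneq` and `descent_subV` in place of `descent_sub`.
-/

namespace Vale.Agent.P072

open MeasureTheory Set Matrix

/-- the rounded entropy does not increase along solutions as long as the other coordinates are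
moderate -/
theorem descent_subV {d : ℕ} {N : Network d} {ε M₁ : ℝ} (hε : 0 < ε) (hε1 : ε ≤ ε⁻¹)
    (hF : N.FluxIneqV ε M₁) {κ : ℝ → Cx d × Cx d → ℝ} (hκ : N.Admissible ε κ)
    {ι : Type} [Fintype ι] (e : ι ↪ Fin d) {Λ M N₀ b CA : ℝ}
    (E : RE ι (N.diffs e) Λ M N₀)
    (hCA : ∀ y ∈ N.complexes, ∀ y' ∈ N.complexes, ∑ i, |(y i : ℝ) - (y' i : ℝ)| ≤ CA)
    (hb : 0 ≤ b) (hM : CA * b + M₁ ≤ M) {T : ℝ} {x : ℝ → Fin d → ℝ}
    (hsol : N.IsSolutionV κ (Ico 0 T) x) (hpos : ∀ t ∈ Ico 0 T, ∀ i, 0 < x t i) {t s : ℝ}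
    (ht : 0 ≤ t) (hts : t ≤ s) (hsT : s < T)
    (hbox : ∀ τ ∈ Icc t s, ∀ i, |Real.log (x τ (e i))| ≤ N₀)
    (hout : ∀ τ ∈ Icc t s, ∀ i, i ∉ Set.range e → |Real.log (x τ i)| ≤ b) :
    E.Φ (fun i => Real.log (x s (e i))) ≤ E.Φ (fun i => Real.log (x t (e i))) := by
  have hsub : Icc t s ⊆ Ico 0 T := fun τ hτ => ⟨ht.trans hτ.1, hτ.2.trans_lt hsT⟩
  have hxc : ContinuousOn x (Icc t s) := hsol.1.mono hsub
  have hwc : ∀ j, ContinuousOn (fun τ => N.worst e ε (E.W j) (x τ)) (Icc t s) := fun j =>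
    (N.continuous_worst e ε (E.W j)).comp_continuousOn hxc
  have h := E.descentV (fun τ i => x τ (e i)) (fun j τ => N.worst e ε (E.W j) (x τ)) hts (c := 0)
    (fun τ hτ i => hpos τ (hsub hτ) (e i)) hbox ?_ hwc ?_ ?_
  · simpa using h
  · rw [continuousOn_pi]
    intro i
    exact (continuous_apply (e i)).comp_continuousOn hxc
  · intro j a ha b hb' hab
    have hsub2 : Icc a b ⊆ Icc t s := Icc_subset_Icc ha.1 hb'.2
    have h1 := hκ.dot_le hsol (ht.trans ha.1) hab (hb'.2.trans_lt hsT) e (E.W j)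
      (fun τ => N.worst e ε (E.W j) (x τ)) ((hwc j).mono hsub2) (fun τ hτ =>
        N.le_worst e ε (E.W j) (x τ) (κ τ) (fun r hr =>
          (hκ r hr).2 τ (ht.trans (hsub2 hτ).1)))
    exact h1
  · intro τ hτ j hj
    rw [neg_zero]
    exact (hF.re hε hε1 e E hCA hb hM (x τ) (hpos τ (hsub hτ)) (hbox τ hτ) (hout τ hτ) j hj).1

/-- the constants of the region -/
structure RegDataV {d : ℕ} (N : Network d) (ε : ℝ) where
  Λ : ℝ
  M₁ : ℝ
  CA : ℝ
  Mf : ℝ
  N₀ : ℝ
  C₀ : ℝ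
  U₀ : ℝ
  a : Finset (Fin d) → ℝ
  b : Finset (Fin d) → ℝ
  M : Finset (Fin d) → ℝ
  E : ∀ I : Finset (Fin d),
    RE {i // i ∈ I} (N.diffs (Function.Embedding.subtype (· ∈ I))) Λ (M I) N₀
  E' : RE {i // i ∈ (Finset.univ : Finset (Fin d))}
    (N.diffs (Function.Embedding.subtype (· ∈ (Finset.univ : Finset (Fin d))))) Λ Mf N₀
  hε : 0 < ε
  hε1 : ε ≤ ε⁻¹
  hF : N.FluxIneqV ε M₁
  hCA : ∀ y ∈ N.complexes, ∀ y' ∈ N.complexes, ∑ i, |(y i : ℝ) - (y' i : ℝ)| ≤ CA
  hM : ∀ I, Λ * M I = a I / 4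
  a_Cp : ∀ I, Cp d ≤ a I
  a_ins : ∀ I : Finset (Fin d), ∀ j, j ∉ I → a (insert j I) + Cp d ≤ a I
  a_b : ∀ I : Finset (Fin d), ∀ j, j ∉ I → a (insert j I) + Cp d + U₀ < b I
  b_nonneg : ∀ I, 0 ≤ b I
  marg : ∀ I, CA * b I + M₁ ≤ M I
  hMf : M₁ ≤ Mf
  upp : ∀ u : {i // i ∈ (Finset.univ : Finset (Fin d))} → ℝ, (∀ i, |u i| ≤ N₀) →
    E'.Φ u ≤ C₀ → ∀ i, u i ≤ U₀
  U₀_nonneg : 0 ≤ U₀
  U₀_lt : U₀ < N₀
  a_lt : ∀ i, a {i} + Cp d < N₀

namespace RegDataV

variable {d : ℕ} {N : Network d} {ε : ℝ} (D : RegDataV N ε)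

/-- the good points -/
def Good (u : Fin d → ℝ) : Prop :=
  (∀ i, |u i| < D.N₀) ∧ D.E'.Φ (fun i => u i) ≤ D.C₀ ∧
    ∀ I : Finset (Fin d), I.Nonempty → ¬ (D.E I).Bad (D.a I) (fun i => u i)

theorem a_pos (I : Finset (Fin d)) : 0 < D.a I := by
  have := Cp_ge d
  have := D.a_Cp I
  linarith

variable {D}

theorem Good.le {u : Fin d → ℝ} (h : D.Good u) (i : Fin d) : u i ≤ D.U₀ :=
  D.upp (fun i => u i) (fun i => (h.1 i).le) h.2.1 ⟨i, Finset.mem_univ i⟩

/-- if all coordinates in `I` are at most `-a`, the bad condition fails only if `Φ` is small -/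
theorem Good.Φ_le {u : Fin d → ℝ} (h : D.Good u) {I : Finset (Fin d)} (hI : I.Nonempty)
    (hu : ∀ i ∈ I, u i ≤ -D.a I) :
    (D.E I).Φ (fun i => u i) ≤ -(D.a I / 4) * Real.exp (-D.a I) := by
  by_contra hc
  push Not at hc
  refine h.2.2 I hI ⟨fun i => ?_, hc⟩
  have h1 := hu i i.2
  have h2 := D.a_pos I
  linarith

/-- some coordinate in `I` is not deep -/
theorem Good.exists_gt {u : Fin d → ℝ} (h : D.Good u) {I : Finset (Fin d)} (hI : I.Nonempty) :
    ∃ i ∈ I, -D.a I - Cp d < u i := by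
  by_contra hc
  push Not at hc
  refine h.2.2 I hI ?_
  refine (D.E I).bad_of_deep (d := d) ?_ (D.a_Cp I) (D.hM I) _ (fun i => (h.1 i).le)
    (fun i => hc i i.2)
  rw [Fintype.card_coe]
  exact (Finset.card_le_univ I).trans (by simp)

theorem Good.gt {u : Fin d → ℝ} (h : D.Good u) (i : Fin d) : -D.a {i} - Cp d < u i := by
  obtain ⟨j, hj, h1⟩ := h.exists_gt (Finset.singleton_nonempty i)
  rw [Finset.mem_singleton] at hj
  rw [hj] at h1
  exact h1

/-- outside coordinates are moderate -/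
theorem Good.out {u : Fin d → ℝ} (h : D.Good u) {I : Finset (Fin d)}
    (hu : ∀ i ∈ I, u i ≤ -D.a I) {j : Fin d} (hj : j ∉ I) : |u j| < D.b I := by
  have hb := D.a_b I j hj
  have h0 := D.U₀_nonneg
  have h3 := D.a_pos (insert j I)
  have h4 := Cp_ge d
  rw [abs_lt]
  constructor
  · obtain ⟨i, hi, h1⟩ := h.exists_gt (Finset.insert_nonempty j I)
    rcases Finset.mem_insert.1 hi with rfl | hi
    · linarith
    · have h2 := hu i hi
      have h5 := D.a_ins I j hj
      linarith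
  · have h2 := h.le j
    linarith

end RegDataV

namespace RegDataV

variable {d : ℕ} {N : Network d} {ε : ℝ} (D : RegDataV N ε)

theorem good_limit {T : ℝ} {u : ℝ → Fin d → ℝ} (hu : ContinuousOn u (Ico 0 T)) {t : ℝ}
    (ht : t ∈ Ico 0 T) (ht0 : 0 < t) (h : ∀ s ∈ Ico 0 t, D.Good (u s)) : D.Good (u t) := by
  have hc : Filter.Tendsto u (nhdsWithin t (Ico 0 t)) (nhds (u t)) :=
    (hu t ht).mono_left (nhdsWithin_mono t (Ico_subset_Ico_right ht.2.le))
  have hne : (nhdsWithin t (Ico 0 t)).NeBot := by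
    rw [← mem_closure_iff_nhdsWithin_neBot, closure_Ico ht0.ne]
    exact ⟨ht0.le, le_rfl⟩
  have hmem : ∀ᶠ s in nhdsWithin t (Ico 0 t), D.Good (u s) := by
    filter_upwards [self_mem_nhdsWithin] with s hs using h s hs
  have hci : ∀ i, Filter.Tendsto (fun s => u s i) (nhdsWithin t (Ico 0 t)) (nhds (u t i)) :=
    fun i => (continuous_apply i).continuousAt.tendsto.comp hc
  have hlow : ∀ i, -D.a {i} - Cp d ≤ u t i := fun i =>
    ge_of_tendsto (hci i) (hmem.mono fun s hs => (hs.gt i).le)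
  have hupp : ∀ i, u t i ≤ D.U₀ := fun i =>
    le_of_tendsto (hci i) (hmem.mono fun s hs => hs.le i)
  have hbox : ∀ i, |u t i| < D.N₀ := by
    intro i
    rw [abs_lt]
    have h1 := hlow i
    have h2 := hupp i
    have h3 := D.a_lt i
    have h4 := D.U₀_lt
    constructor <;> linarith
  refine ⟨hbox, ?_, ?_⟩
  · have h1 : Filter.Tendsto (fun s => D.E'.Φ (fun i => u s i)) (nhdsWithin t (Ico 0 t))
        (nhds (D.E'.Φ (fun i => u t i))) := by
      refine (D.E'.cont.tendsto _).comp ?_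
      rw [tendsto_pi_nhds]
      exact fun i => hci i
    exact le_of_tendsto h1 (hmem.mono fun s hs => hs.2.1)
  · intro I hI hbad
    have h2 := hbad.lt (D.a_pos I) (D.hM I) (fun i => (hbox i).le)
    have h3 : ∀ᶠ s in nhdsWithin t (Ico 0 t), (D.E I).Bad (D.a I) (fun i => u s i) := by
      have h4 : ∀ᶠ s in nhdsWithin t (Ico 0 t), ∀ i : {i // i ∈ I}, u s i ≤ -(D.a I / 2) := by
        rw [Filter.eventually_all]
        intro i
        have h5 : u t i < -(D.a I / 2) := by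
          have := h2 i
          have := D.a_pos I
          linarith
        exact ((hci i).eventually (gt_mem_nhds h5)).mono fun s hs => le_of_lt hs
      have h6 : Filter.Tendsto (fun s => (D.E I).Φ (fun i => u s i)) (nhdsWithin t (Ico 0 t))
          (nhds ((D.E I).Φ (fun i => u t i))) := by
        refine ((D.E I).cont.tendsto _).comp ?_
        rw [tendsto_pi_nhds]
        exact fun i => hci i
      have h7 := h6.eventually (lt_mem_nhds hbad.2)
      filter_upwards [h4, h7] with s h8 h9 using ⟨h8, h9⟩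
    obtain ⟨s, hs1, hs2⟩ := (hmem.and h3).exists
    exact hs1.2.2 I hI hs2

theorem good_step {κ : ℝ → Cx d × Cx d → ℝ} (hκ : N.Admissible ε κ) {T : ℝ} {x : ℝ → Fin d → ℝ}
    (hsol : N.IsSolutionV κ (Ico 0 T) x) (hpos : ∀ t ∈ Ico 0 T, ∀ i, 0 < x t i)
    (hu : ContinuousOn (fun t i => Real.log (x t i)) (Ico 0 T)) {t : ℝ} (ht : t ∈ Ico 0 T)
    (h : D.Good (fun i => Real.log (x t i))) :
    ∃ ε > 0, ∀ s ∈ Ioo t (t + ε), s < T → D.Good (fun i => Real.log (x s i)) := by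
  -- the box persists
  have hcoord : ∀ i, Continuous fun v : Fin d → ℝ => v i := fun i => continuous_apply i
  obtain ⟨δ₀, hδ₀, hδ₀T, hbox⟩ := near_right hu ht (P := fun v => ∀ i, |v i| < D.N₀) (by
    rw [Filter.eventually_all]
    exact fun i => (hcoord i).abs.continuousAt.eventually (gt_mem_nhds (h.1 i)))
  -- each bad set is avoided
  have hI : ∀ I : Finset (Fin d), ∃ δ > 0, δ ≤ δ₀ ∧ ∀ s ∈ Ico t (t + δ), I.Nonempty →
      ¬ (D.E I).Bad (D.a I) (fun i => Real.log (x s i)) := by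
    intro I
    by_cases hA : ∃ i ∈ I, -D.a I < Real.log (x t i)
    · obtain ⟨i, hi, h1⟩ := hA
      obtain ⟨δ, hδ, -, h2⟩ := near_right hu ht (P := fun v => -D.a I < v i)
        ((hcoord i).continuousAt.eventually (lt_mem_nhds h1))
      refine ⟨min δ δ₀, lt_min hδ hδ₀, min_le_right _ _, fun s hs _ hbad => ?_⟩
      have hs1 : s ∈ Ico t (t + δ) := ⟨hs.1, hs.2.trans_le (by linarith [min_le_left δ δ₀])⟩
      have hs2 : s ∈ Ico t (t + δ₀) := ⟨hs.1, hs.2.trans_le (by linarith [min_le_right δ δ₀])⟩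
      have h3 := hbad.lt (D.a_pos I) (D.hM I) (fun i => (hbox s hs2 i).le) ⟨i, hi⟩
      have h4 := h2 s hs1
      simp only at h3 h4
      linarith
    · push Not at hA
      obtain ⟨δ, hδ, -, h2⟩ := near_right hu ht
        (P := fun v => ∀ j, j ∉ I → |v j| < D.b I) (by
          rw [Filter.eventually_all]
          intro j
          by_cases hj : j ∈ I
          · exact Filter.Eventually.of_forall fun v hj' => absurd hj hj'
          · exact ((hcoord j).abs.continuousAt.eventually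
              (gt_mem_nhds (h.out hA hj))).mono fun v hv _ => hv)
      refine ⟨min δ δ₀, lt_min hδ hδ₀, min_le_right _ _, fun s hs hne hbad => ?_⟩
      have hs0 : s < T := by linarith [hs.2, min_le_right δ δ₀]
      have hsub1 : ∀ τ ∈ Icc t s, τ ∈ Ico t (t + δ) := fun τ hτ =>
        ⟨hτ.1, by linarith [hτ.2, hs.2, min_le_left δ δ₀]⟩
      have hsub2 : ∀ τ ∈ Icc t s, τ ∈ Ico t (t + δ₀) := fun τ hτ =>
        ⟨hτ.1, by linarith [hτ.2, hs.2, min_le_right δ δ₀]⟩
      have h3 := descent_subV D.hε D.hε1 D.hF hκ (Function.Embedding.subtype (· ∈ I)) (D.E I) D.hCA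
        (D.b_nonneg I) (D.marg I) hsol hpos ht.1 hs.1 hs0
        (fun τ hτ i => (hbox τ (hsub2 τ hτ) i).le)
        (fun τ hτ i hi => (h2 τ (hsub1 τ hτ) i (fun hiI => hi ⟨⟨i, hiI⟩, rfl⟩)).le)
      have h4 := h.Φ_le hne hA
      have h5 := hbad.2
      simp only [Function.Embedding.subtype_apply] at h3
      linarith
  choose δ hδ hδ' hδb using hI
  have hfin : ∃ ε > 0, ∀ I, ε ≤ δ I := by
    refine ⟨Finset.univ.inf' Finset.univ_nonempty δ, ?_, fun I => Finset.inf'_le _ (Finset.mem_univ I)⟩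
    rw [gt_iff_lt, Finset.lt_inf'_iff]
    exact fun I _ => hδ I
  obtain ⟨ε, hε, hεδ⟩ := hfin
  refine ⟨ε, hε, fun s hs hsT => ?_⟩
  have hε0 : ε ≤ δ₀ := (hεδ ∅).trans (hδ' ∅)
  refine ⟨hbox s ⟨hs.1.le, by linarith [hs.2]⟩, ?_, fun I hne => hδb I s ⟨hs.1.le, by
    linarith [hs.2, hεδ I]⟩ hne⟩
  have h3 := descent_subV D.hε D.hε1 D.hF hκ (Function.Embedding.subtype (· ∈ (Finset.univ : Finset (Fin d)))) D.E'
    D.hCA (b := 0) le_rfl (by simpa using D.hMf) hsol hpos ht.1 hs.1.le hsT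
    (fun τ hτ i => (hbox τ ⟨hτ.1, by linarith [hτ.2, hs.2]⟩ i).le)
    (fun τ hτ i hi => absurd ⟨⟨i, Finset.mem_univ i⟩, rfl⟩ hi)
  simp only [Function.Embedding.subtype_apply] at h3
  exact h3.trans h.2.1

theorem good_all {κ : ℝ → Cx d × Cx d → ℝ} (hκ : N.Admissible ε κ) {T : ℝ} {x : ℝ → Fin d → ℝ}
    (hsol : N.IsSolutionV κ (Ico 0 T) x) (hpos : ∀ t ∈ Ico 0 T, ∀ i, 0 < x t i)
    (h0 : D.Good (fun i => Real.log (x 0 i))) :
    ∀ t ∈ Ico 0 T, D.Good (fun i => Real.log (x t i)) := by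
  have hu : ContinuousOn (fun t i => Real.log (x t i)) (Ico 0 T) := by
    rw [continuousOn_pi]
    intro i
    have h1 : ContinuousOn (fun t => x t i) (Ico 0 T) := by
      have h2 : ContinuousOn x (Ico 0 T) := hsol.1
      exact (continuous_apply i).comp_continuousOn h2
    exact h1.log fun t ht => (hpos t ht i).ne'
  refine Ico_induct (fun t => D.Good (fun i => Real.log (x t i))) (fun _ => h0) ?_ ?_
  · intro t ht ht0 h
    exact D.good_limit hu ht ht0 h
  · intro t ht h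
    exact D.good_step hκ hsol hpos hu ht (h t ⟨ht.1, le_rfl⟩)

end RegDataV

theorem exists_dataV {d : ℕ} (hd : 0 < d) (N : Network d) (hN : N.WeaklyReversible)
    (ε : ℝ) (hε : 0 < ε) (hε1 : ε ≤ ε⁻¹) (U : ℝ) (hU : 0 ≤ U) :
    ∃ D : RegDataV N ε, ∀ u : Fin d → ℝ, (∀ i, |u i| ≤ U) → D.Good u := by
  obtain ⟨M₁, hM₁, hF⟩ := flux_unif N hN ε hε
  obtain ⟨Λ, M₀, hΛ, hM₀, hRE⟩ := hasRE_all N
  obtain ⟨CA, hCA0, hCA⟩ := N.exists_CA
  have hCp := Cp_ge d
  have hΛ0 : 0 < Λ := by linarith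
  obtain ⟨Mf, hMf⟩ : ∃ Mf, Mf = max M₀ M₁ := ⟨_, rfl⟩
  have hMf0 : M₀ ≤ Mf := hMf ▸ le_max_left _ _
  have hMf1 : M₁ ≤ Mf := hMf ▸ le_max_right _ _
  obtain ⟨C₀, hC₀⟩ : ∃ C₀ : ℝ, C₀ = Fintype.card {i // i ∈ (Finset.univ : Finset (Fin d))} *
    (Real.exp U * (U + Λ * Mf)) := ⟨_, rfl⟩
  obtain ⟨U₀, hU₀, hupp⟩ := RE.upper_bd {i // i ∈ (Finset.univ : Finset (Fin d))} Λ Mf C₀
  obtain ⟨lam, hlam⟩ : ∃ lam : ℝ, lam = 8 * Λ * CA + 8 := ⟨_, rfl⟩
  have hΛCA : 0 ≤ Λ * CA := mul_nonneg hΛ0.le hCA0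
  have hlam8 : 8 ≤ lam := by rw [hlam]; linarith
  obtain ⟨R, hR⟩ : ∃ R : ℝ, R = Cp d + 2 * U + 4 * Λ * M₀ +
    8 * Λ * (M₁ + CA * (Cp d + U₀ + 1)) + U₀ + 1 := ⟨_, rfl⟩
  have h1 : 0 ≤ 4 * Λ * M₀ := by positivity
  have h2 : 0 ≤ 8 * Λ * (M₁ + CA * (Cp d + U₀ + 1)) := by positivity
  have hR0 : 0 < R := by linarith
  have hpow : ∀ n : ℕ, R ≤ lam ^ n * R := fun n => by
    have : 1 ≤ lam ^ n := one_le_pow₀ (by linarith)
    nlinarith
  have hM0 : ∀ n : ℕ, M₀ ≤ lam ^ n * R / (4 * Λ) := fun n => by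
    rw [le_div_iff₀ (by positivity)]
    have := hpow n
    linarith
  have hins : ∀ I : Finset (Fin d), ∀ j, j ∉ I →
      lam ^ (d - I.card) * R = lam * (lam ^ (d - (insert j I).card) * R) := by
    intro I j hj
    have h3 : I.card + 1 ≤ d := by
      have h4 := Finset.card_le_univ (insert j I)
      rw [Finset.card_insert_of_notMem hj, Fintype.card_fin] at h4
      exact h4
    rw [Finset.card_insert_of_notMem hj]
    have h5 : d - I.card = (d - (I.card + 1)) + 1 := by omega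
    rw [h5, pow_succ]
    ring
  let D : RegDataV N ε :=
    { Λ := Λ
      M₁ := M₁
      CA := CA
      Mf := Mf
      N₀ := lam ^ d * R
      C₀ := C₀
      U₀ := U₀
      a := fun I => lam ^ (d - I.card) * R
      b := fun I => lam ^ (d - I.card) * R / lam + Cp d + U₀ + 1
      M := fun I => lam ^ (d - I.card) * R / (4 * Λ)
      E := fun I => (hRE I _ (hM0 _) _).some
      E' := (hRE Finset.univ Mf hMf0 _).some
      hε := hε
      hε1 := hε1
      hF := hF
      hCA := hCA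
      hM := fun I => by field_simp
      a_Cp := fun I => by
        have := hpow (d - I.card)
        linarith
      a_ins := fun I j hj => by
        have h3 := hins I j hj
        have h4 := hpow (d - (insert j I).card)
        rw [h3]
        nlinarith
      a_b := fun I j hj => by
        have h3 := hins I j hj
        rw [h3, mul_div_cancel_left₀ _ (by linarith : lam ≠ 0)]
        linarith
      b_nonneg := fun I => by
        have h3 : 0 ≤ lam ^ (d - I.card) * R / lam := by positivity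
        linarith
      marg := fun I => by
        have h3 := hpow (d - I.card)
        have h4 : 0 < lam ^ (d - I.card) * R := by linarith
        rw [le_div_iff₀ (by positivity)]
        have h5 : CA * (lam ^ (d - I.card) * R / lam) * (4 * Λ) ≤ lam ^ (d - I.card) * R / 2 := by
          have h6 : CA * (lam ^ (d - I.card) * R / lam) * (4 * Λ) =
              (lam ^ (d - I.card) * R / 2) * (8 * (Λ * CA) / lam) := by
            field_simp
            ring
          have h7 : 8 * (Λ * CA) / lam ≤ 1 := by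
            rw [div_le_one (by linarith)]
            linarith
          rw [h6]
          nlinarith
        have h8 : (CA * (Cp d + U₀ + 1) + M₁) * (4 * Λ) ≤ lam ^ (d - I.card) * R / 2 := by
          linarith
        calc (CA * (lam ^ (d - I.card) * R / lam + Cp d + U₀ + 1) + M₁) * (4 * Λ) =
            CA * (lam ^ (d - I.card) * R / lam) * (4 * Λ) +
              (CA * (Cp d + U₀ + 1) + M₁) * (4 * Λ) := by ring
          _ ≤ _ := by linarith
      hMf := hMf1
      upp := fun u hu hΦ => hupp _ _ _ u hu hΦ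
      U₀_nonneg := hU₀
      U₀_lt := by
        have := hpow d
        linarith
      a_lt := fun i => by
        have h3 : lam ^ d * R = lam * (lam ^ (d - 1) * R) := by
          have h4 : d = (d - 1) + 1 := by omega
          conv_lhs => rw [h4, pow_succ]
          ring
        have h4 := hpow (d - 1)
        simp only [Finset.card_singleton]
        rw [h3]
        nlinarith }
  refine ⟨D, fun u hu => ⟨fun i => ?_, ?_, ?_⟩⟩
  · have h3 := hpow d
    have h4 := hu i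
    change |u i| < lam ^ d * R
    linarith
  · have h3 := hpow d
    have h5 := D.E'.init (U := U) (mul_nonneg hΛ0.le (by linarith : (0 : ℝ) ≤ Mf)) hU (fun i => u i)
      (fun i => by
        have h4 := hu i
        change |u i| ≤ lam ^ d * R
        linarith) (fun i => hu i)
    exact h5.trans hC₀.symm.le
  · rintro I ⟨i, hi⟩ hbad
    have h3 := hpow (d - I.card)
    have h4 := hbad.1 ⟨i, hi⟩
    have h5 := (abs_le.1 (hu i)).1
    change u i ≤ -(lam ^ (d - I.card) * R / 2) at h4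
    linarith

theorem regionV {d : ℕ} (N : Network d) (hN : N.WeaklyReversible) (ε : ℝ) (hε : 0 < ε)
    (hε1 : ε ≤ ε⁻¹) : N.BoundedV ε := by
  intro U
  rcases Nat.eq_zero_or_pos d with hd | hd
  · subst hd
    exact ⟨0, fun κ _ T x _ _ _ t _ i => i.elim0⟩
  · obtain ⟨D, hD⟩ := exists_dataV hd N hN ε hε hε1 |U| (abs_nonneg U)
    refine ⟨D.N₀, fun κ hκ T x hsol hpos h0 t ht i => ?_⟩
    exact ((D.good_all hκ hsol hpos (hD _ fun i => (h0 i).trans (le_abs_self U)) t ht).1 i).le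

end Vale.Agent.P072
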